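import Vale.Agent.P355.H693.GFin

/-! Packed end theorems: lists of inequalities from packed certificates for the three kinds of
frames, and the end theorem for five bases with an orthogonal mark. -/

namespace Vale.Agent.P355.H693

open Finset Matrix Vale.Agent.P355 Vale.Agent.P355.H129 H147
open Vale.Agent.P355.H138 (Tr ARel BrP RwP)

set_option linter.unusedSectionVars false
set_option linter.unusedSimpArgs false

variable {m N c K W : ℕ}

theorem lval_append (x : Fin 7 → Fin 7 → ℂ) (l l' : List (ℤ × Bool × ℤ)) :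
    lval K x (l ++ l') = lval K x l + lval K x l' := by
  simp [lval]

/-- **Packed inequality for frames with an orthogonal mark.** -/
theorem V0_packed {B : Fin m → M6} (hB : IsMUBs B) (hc : 3 ≤ c) {ct : GT} {L L0 : List VR}
    (hL : (L.all fun r => r.ok N c K (tabG ct) 7 7) = true)
    (hL0 : (L0.all fun r => r.ok N c K (tabG ct) 6 0) = true)
    {l : List (ℤ × Bool × ℤ)} (hl : L.map VR.term ++ L0.map VR.term = l)
    {tr : Tr} {ids : List ℕ} {PT QT MT MT' : ℕ}
    (hpk : pk W tr l ids = some ((PT, MT), (QT, MT')))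
    {one : ℕ} (hone : idOK tr false 0 one = true) {d v E S MS Kc MK PR QR MR oU μ : ℕ} {ε : ℝ}
    (hS : ∀ x, Ext0 x → H182.N7x x → Blk W (H138.vl K x tr) S MS Kc MK oU)
    (hR : ∀ x, Ext0 x → H182.N7x x → ARel W (H138.vl K x tr) PR QR MR ε)
    (hck : resL1 d W v (PT + (oU * Kc + PR)) (QT + (S + (QR + μ <<< (W * one))))
      (MT + (oU * MK + MR)) (MT' + (MS + (MR + μ))) E = true)
    (hμ : 5 / 2 * (E : ℝ) + ε < μ) :
    0 ≤ valT (cv B N c) ct (sclT 6 (L.map VR.ct) ++ sclT 5 (L0.map VR.ct)) := by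
  refine V0_T hB hc hL hL0 fun x hx hN => ?_
  rw [← lval_append, hl]
  exact (lval_posA hx.toBase hpk hone (hS x hx hN) (hR x hx hN) hck hμ).le

/-- **Packed inequality for unmarked frames.** -/
theorem V_packed {B : Fin m → M6} (hB : IsMUBs B) (hc : 3 ≤ c) {ct : GT} {L : List VR}
    (hL : (L.all fun r => r.ok N c K (tabG ct) 6 0) = true)
    {l : List (ℤ × Bool × ℤ)} (hl : L.map VR.term = l)
    {tr : Tr} {ids : List ℕ} {PT QT MT MT' : ℕ}
    (hpk : pk W tr l ids = some ((PT, MT), (QT, MT')))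
    {one : ℕ} (hone : idOK tr false 0 one = true) {d v E S MS Kc MK PR QR MR oU μ : ℕ} {ε : ℝ}
    (hS : ∀ x, H138.Good false x → H182.N7x x → Blk W (H138.vl K x tr) S MS Kc MK oU)
    (hR : ∀ x, H138.Good false x → H182.N7x x → ARel W (H138.vl K x tr) PR QR MR ε)
    (hck : resL1 d W v (PT + (oU * Kc + PR)) (QT + (S + (QR + μ <<< (W * one))))
      (MT + (oU * MK + MR)) (MT' + (MS + (MR + μ))) E = true)
    (hμ : 5 / 2 * (E : ℝ) + ε < μ) :
    0 ≤ valT (cv B N c) ct (L.map VR.ct) :=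
  V_T hB hc hL fun x hx hN => by
    rw [hl]
    exact (lval_posA hx.1 hpk hone (hS x hx hN) (hR x hx hN) hck hμ).le

/-- **Packed inequality for frames with a mark in a fourth basis.** -/
theorem Vm_packed {B : Fin m → M6} (hB : IsMUBs B) (hc : 4 ≤ c) {ct : GT} {L : List VR}
    (hL : (L.all fun r => r.ok N c K (tabG ct) 6 8) = true)
    {l : List (ℤ × Bool × ℤ)} (hl : L.map VR.term = l)
    {tr : Tr} {ids : List ℕ} {PT QT MT MT' : ℕ}
    (hpk : pk W tr l ids = some ((PT, MT), (QT, MT')))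
    {one : ℕ} (hone : idOK tr false 0 one = true) {d v E S MS Kc MK PR QR MR oU μ : ℕ} {ε : ℝ}
    (hS : ∀ x, H138.Good true x → H182.N7x x → Blk W (H138.vl K x tr) S MS Kc MK oU)
    (hR : ∀ x, H138.Good true x → H182.N7x x → ARel W (H138.vl K x tr) PR QR MR ε)
    (hck : resL1 d W v (PT + (oU * Kc + PR)) (QT + (S + (QR + μ <<< (W * one))))
      (MT + (oU * MK + MR)) (MT' + (MS + (MR + μ))) E = true)
    (hμ : 5 / 2 * (E : ℝ) + ε < μ) :
    0 ≤ valT (cv B N c) ct (L.map VR.ct) :=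
  Vm_T hB hc hL fun x hx hN => by
    rw [hl]
    exact (lval_posA hx.1 hpk hone (hS x hx hN) (hR x hx hN) hck hμ).le

/-- **No five bases**: inequality `lV` on frames with an orthogonal mark, packing block `lP`,
`t2 ≥ 0`, rows `out`. -/
theorem no_five_V0 {ct : GT} {lV lP : List (ℤ × ℕ)} {out : List (ℕ × ℕ)} {T0 TT de al : ℕ}
    (hc : 3 ≤ c) (hcm : c ≤ 5) (hN : 3 ≤ N) (hde : 0 < de)
    (hV : ∀ B : Fin 5 → M6, IsMUBs B → 0 ≤ valT (cv B N c) ct lV)
    (hP : ∀ B : Fin 5 → M6, IsMUBs B → 0 ≤ valT (cv B N c) ct lP)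
    (hT : tck N c (tabG ct) 0 wTri gTri TT = true)
    (h0 : tck N c (tabG ct) 0 (fun _ => 0) (fun _ _ => 96) T0 = true)
    (ho : ∀ B : Fin 5 → M6, IsMUBs B → evL (cv B N c) ct out = 0)
    (hck : ckFinG ct ((lV ++ (lP ++ [((al : ℤ), TT)])) ++ [((de : ℤ), T0)]) out = true)
    (B : Fin 5 → M6) : ¬ IsMUBs B := by
  intro hB
  refine no_mubs_sum hB hcm hde h0 ?_ (ho B hB) hck
  rw [valT_append, valT_append]
  have h1 := hV B hB
  have h2 := hP B hB
  have h3 := tri_T hB hc hcm hN hT (al := al)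
  linarith

end Vale.Agent.P355.H693
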