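import Vale.Agent.P355.H387.RowChk

/-! Accumulators for tables of naturals with an arbitrary value function (after H387). -/

namespace Vale.Agent.P355.H693

open Finset
open Vale.Agent.P355.H387 (seq seq_eq pk ms vl pk_append pk_cons pk_smulT ms_append ms_cons ms_smulT
  vl_append vl_cons vl_smulT smulT ms_nonneg shl_eq AT upd shr_pk cnt_lt pk_zero)

/-- binary table of keys: leaves hold 64 entries of 320 bits. -/
inductive GT where
  | lf : ℕ → GT
  | nd : GT → GT → GT

/-- entry of a leaf. -/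
def entG (C lo : ℕ) : ℕ := Nat.land (Nat.shiftRight C (Nat.mul 320 lo))
  2135987035920910082395021706169552114602704522356652769947041607822219725780640550022962086936575

/-- look up. -/
noncomputable def GT.get (t : GT) : ℕ → ℕ → ℕ :=
  GT.rec (motive := fun _ => ℕ → ℕ → ℕ) (fun C _ lo => entG C lo)
    (fun _ _ ia ib hi lo => Nat.rec (motive := fun _ => ℕ) (ia (Nat.shiftRight hi 1) lo)
      (fun _ _ => ib (Nat.shiftRight hi 1) lo) (Nat.land hi 1)) t

variable {g : ℕ → ℝ}

/-- the accumulator `t` stands for the value `V` (of mass at most `S`). -/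
def AG (g : ℕ → ℝ)   : GT → AT → ℕ → ℝ → Prop
  | .lf C, .lf X, S, V => ∃ (T : List (ℤ × ℕ)) (c : ℕ), (X : ℤ) = c + 2 ^ 64 * pk 64 T ∧
      (c : ℤ) + ms T ≤ S ∧ vl (fun lo => g (entG C lo)) T = V
  | .nd a b, .nd a' b', S, V => ∃ V1 V2, AG g a a' S V1 ∧ AG g b b' S V2 ∧ V = V1 + V2
  | .lf _, .nd _ _, _, _ => False
  | .nd _ _, .lf _, _, _ => False

theorem AG.mono {ct   : GT} {t : AT} {S S' : ℕ} {V : ℝ} (h : AG g ct t S V) (hS : S ≤ S') :
    AG g ct t S' V := by
  induction ct generalizing t V with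
  | lf C =>
    cases t with
    | lf X =>
      obtain ⟨T, c, h1, h2, h3⟩ := h
      exact ⟨T, c, h1, h2.trans (by exact_mod_cast hS), h3⟩
    | nd _ _ => exact h
  | nd a b iha ihb =>
    cases t with
    | lf X => exact h
    | nd a' b' =>
      obtain ⟨V1, V2, h1, h2, h3⟩ := h
      exact ⟨V1, V2, iha h1, ihb h2, h3⟩

theorem AG.ins {ct   : GT} {t : AT} {S : ℕ} {V : ℝ} (h : AG g ct t S V) (hi lo c : ℕ)
    (k : AT → Bool) (hk : t.ins hi (upd c lo) k = true) :
    ∃ t', AG g ct t' (S + c + 1) (V + c * g (ct.get hi lo)) ∧ k t' = true := by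
  induction ct generalizing t V hi k with
  | lf C =>
    cases t with
    | nd _ _ => exact absurd h (by simp [AG])
    | lf X =>
      obtain ⟨T, n, h1, h2, h3⟩ := h
      have hk' : k (AT.lf (upd c lo X)) = true := by
        have : (AT.lf X).ins hi (upd c lo) k = seq (upd c lo X) fun X' => k (AT.lf X') := rfl
        rw [this, seq_eq] at hk
        exact hk
      refine ⟨AT.lf (upd c lo X), ?_, hk'⟩
      show ∃ (T : List (ℤ × ℕ)) (n' : ℕ), ((upd c lo X : ℕ) : ℤ) = n' + 2 ^ 64 * pk 64 T ∧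
        (n' : ℤ) + ms T ≤ (S + c + 1 : ℕ) ∧ vl (fun lo => g (entG C lo)) T
          = V + c * g ((GT.lf C).get hi lo)
      refine ⟨((c : ℤ), lo) :: T, n + 1, ?_, ?_, ?_⟩
      · have e1 : upd c lo X = X + (c * 2 ^ (64 * (lo + 1)) + 1) := by
          unfold upd
          show X + (Nat.shiftLeft c (64 * (lo + 1)) + 1) = _
          rw [shl_eq]
        rw [e1, pk_cons]
        push_cast
        rw [h1, mul_add, pow_add]
        ring
      · rw [ms_cons]; push_cast
        have : |(c : ℤ)| = c := abs_of_nonneg (by positivity)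
        rw [this]; linarith
      · rw [vl_cons, h3]; push_cast
        have : (GT.lf C).get hi lo = entG C lo := rfl
        rw [this]; ring
  | nd a b iha ihb =>
    cases t with
    | lf _ => exact absurd h (by simp [AG])
    | nd a' b' =>
      obtain ⟨V1, V2, h1, h2, rfl⟩ := h
      have hg : (GT.nd a b).get hi lo = Nat.rec (motive := fun _ => ℕ) (a.get (Nat.shiftRight hi 1) lo)
        (fun _ _ => b.get (Nat.shiftRight hi 1) lo) (Nat.land hi 1) := rfl
      have hi' : (AT.nd a' b').ins hi (upd c lo) k = Nat.rec (motive := fun _ => Bool)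
        (a'.ins (Nat.shiftRight hi 1) (upd c lo) fun a' => k (AT.nd a' b'))
        (fun _ _ => b'.ins (Nat.shiftRight hi 1) (upd c lo) fun b' => k (AT.nd a' b'))
        (Nat.land hi 1) := rfl
      rw [hi'] at hk
      rw [hg]
      obtain ⟨m, hm⟩ : ∃ m, m = Nat.land hi 1 := ⟨_, rfl⟩
      rw [← hm] at hk ⊢
      cases m with
      | zero =>
        obtain ⟨t', e1, e2⟩ := iha h1 _ _ hk
        refine ⟨AT.nd t' b', ?_, e2⟩
        show ∃ W1 W2, AG g a t' (S + c + 1) W1 ∧ AG g b b' (S + c + 1) W2 ∧ _ = W1 + W2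
        exact ⟨_, _, e1, h2.mono (by omega), by
          show V1 + V2 + (c : ℝ) * g (a.get (Nat.shiftRight hi 1) lo) = _
          ring⟩
      | succ m =>
        obtain ⟨t', e1, e2⟩ := ihb h2 _ _ hk
        refine ⟨AT.nd a' t', ?_, e2⟩
        show ∃ W1 W2, AG g a a' (S + c + 1) W1 ∧ AG g b t' (S + c + 1) W2 ∧ _ = W1 + W2
        exact ⟨_, _, h1.mono (by omega), e1, by ring⟩

/-- zero accumulator of the shape of a table. -/
noncomputable def zeroT (ct   : GT) : AT :=
  GT.rec (motive := fun _ => AT) (fun _ => AT.lf 0) (fun _ _ a b => AT.nd a b) ct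

theorem AG.zero (ct   : GT) : AG g ct (zeroT ct) 0 0 := by
  induction ct with
  | lf C => exact ⟨[], 0, by simp, by simp, by simp⟩
  | nd a b iha ihb => exact ⟨0, 0, iha, ihb, by simp⟩


/-- insert one entry. -/
noncomputable def one (e S : ℕ) (P Q : AT) (k : ℕ → AT → AT → Bool) : Bool :=
  seq (Nat.land e 63) fun lo =>
  seq (Nat.land (Nat.shiftRight e 6) 4095) fun hi =>
  seq (Nat.shiftRight e 19) fun c =>
  seq (Nat.add S (Nat.succ c)) fun S' =>
  Nat.rec (motive := fun _ => Bool) (P.ins hi (upd c lo) fun P' => k S' P' Q)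
    (fun _ _ => Q.ins hi (upd c lo) fun Q' => k S' P Q') (Nat.land (Nat.shiftRight e 18) 1)

/-- value of an entry. -/
noncomputable def ev (g : ℕ → ℝ) (ct   : GT) (e : ℕ) : ℝ :=
  (if Nat.land (Nat.shiftRight e 18) 1 = 0 then 1 else -1) * ((Nat.shiftRight e 19 : ℕ) : ℝ) *
    g (ct.get (Nat.land (Nat.shiftRight e 6) 4095) (Nat.land e 63))

theorem one_sound {ct   : GT} {e S : ℕ} {P Q : AT} {V W : ℝ} (hP : AG g ct P S V)
    (hQ : AG g ct Q S W) (k : ℕ → AT → AT → Bool) (hk : one e S P Q k = true) :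
    ∃ S' P' Q' V' W', AG g ct P' S' V' ∧ AG g ct Q' S' W' ∧ V' - W' = V - W + ev g ct e ∧
      k S' P' Q' = true := by
  unfold one at hk
  simp only [seq_eq] at hk
  unfold ev
  generalize Nat.land (Nat.shiftRight e 18) 1 = sg at hk ⊢
  have hS : Nat.add S (Nat.succ (Nat.shiftRight e 19)) = S + Nat.shiftRight e 19 + 1 := rfl
  cases sg with
  | zero =>
    obtain ⟨P', a1, a2⟩ := hP.ins _ _ _ _ hk
    exact ⟨_, P', Q, _, _, a1, hQ.mono (by rw [hS] at *; omega), by simp; ring, by rw [hS] at a2; exact a2⟩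
  | succ sg =>
    obtain ⟨Q', a1, a2⟩ := hQ.ins _ _ _ _ hk
    exact ⟨_, P, Q', _, _, hP.mono (by rw [hS] at *; omega), a1, by simp; ring, by rw [hS] at a2; exact a2⟩

/-- `n` entries. -/
noncomputable def loadN (n : ℕ) : ℕ → ℕ → AT → AT → (ℕ → AT → AT → Bool) → Bool :=
  Nat.rec (motive := fun _ => ℕ → ℕ → AT → AT → (ℕ → AT → AT → Bool) → Bool)
    (fun _ S P Q k => k S P Q)
    (fun _ ih C S P Q k => seq (Nat.land C 1208925819614629174706175) fun e =>
      one e S P Q fun S' P' Q' => seq (Nat.shiftRight C 80) fun C' => ih C' S' P' Q' k) n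

/-- value of `n` entries. -/
noncomputable def evN (g : ℕ → ℝ) (ct   : GT) (n : ℕ) : ℕ → ℝ :=
  Nat.rec (motive := fun _ => ℕ → ℝ) (fun _ => 0)
    (fun _ ih C => ev g ct (Nat.land C 1208925819614629174706175) + ih (Nat.shiftRight C 80)) n

theorem loadN_sound {ct   : GT} (k : ℕ → AT → AT → Bool) (n : ℕ) :
    ∀ (C S : ℕ) (P Q : AT) (V W : ℝ), AG g ct P S V → AG g ct Q S W →
    loadN n C S P Q k = true →
    ∃ S' P' Q' V' W', AG g ct P' S' V' ∧ AG g ct Q' S' W' ∧ V' - W' = V - W + evN g ct n C ∧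
      k S' P' Q' = true := by
  induction n with
  | zero =>
    intro C S P Q V W hP hQ hk
    exact ⟨S, P, Q, V, W, hP, hQ, by simp [evN], hk⟩
  | succ n ih =>
    intro C S P Q V W hP hQ hk
    have hstep : loadN (n + 1) C S P Q k = seq (Nat.land C 1208925819614629174706175) fun e =>
      one e S P Q fun S' P' Q' => seq (Nat.shiftRight C 80) fun C' =>
        loadN n C' S' P' Q' k := rfl
    have hev : evN g ct (n + 1) C = ev g ct (Nat.land C 1208925819614629174706175)
      + evN g ct n (Nat.shiftRight C 80) := rfl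
    rw [hstep, seq_eq] at hk
    obtain ⟨S1, P1, Q1, V1, W1, a1, a2, a3, a4⟩ := one_sound hP hQ _ hk
    rw [seq_eq] at a4
    obtain ⟨S2, P2, Q2, V2, W2, b1, b2, b3, b4⟩ := ih _ _ _ _ _ _ a1 a2 a4
    exact ⟨S2, P2, Q2, V2, W2, b1, b2, by rw [b3, a3, hev]; ring, b4⟩

/-- a sparse list: chunks (number of entries, packed entries). -/
noncomputable def loadL (L : List (ℕ × ℕ)) : ℕ → AT → AT → (ℕ → AT → AT → Bool) → Bool :=
  List.rec (motive := fun _ => ℕ → AT → AT → (ℕ → AT → AT → Bool) → Bool)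
    (fun S P Q k => k S P Q)
    (fun c _ ih S P Q k => loadN c.1 c.2 S P Q fun S' P' Q' => ih S' P' Q' k) L

/-- value of a sparse list. -/
noncomputable def evL (g : ℕ → ℝ) (ct   : GT) (L : List (ℕ × ℕ)) : ℝ :=
  (L.map fun c => evN g ct c.1 c.2).sum

theorem loadL_sound {ct   : GT} (k : ℕ → AT → AT → Bool) (L : List (ℕ × ℕ)) :
    ∀ (S : ℕ) (P Q : AT) (V W : ℝ), AG g ct P S V → AG g ct Q S W →
    loadL L S P Q k = true →
    ∃ S' P' Q' V' W', AG g ct P' S' V' ∧ AG g ct Q' S' W' ∧ V' - W' = V - W + evL g ct L ∧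
      k S' P' Q' = true := by
  induction L with
  | nil =>
    intro S P Q V W hP hQ hk
    exact ⟨S, P, Q, V, W, hP, hQ, by simp [evL], hk⟩
  | cons c L ih =>
    intro S P Q V W hP hQ hk
    obtain ⟨S1, P1, Q1, V1, W1, a1, a2, a3, a4⟩ := loadN_sound _ _ _ _ _ _ _ _ hP hQ hk
    obtain ⟨S2, P2, Q2, V2, W2, b1, b2, b3, b4⟩ := ih _ _ _ _ _ a1 a2 a4
    refine ⟨S2, P2, Q2, V2, W2, b1, b2, ?_, b4⟩
    rw [b3, a3]
    simp only [evL, List.map_cons, List.sum_cons]
    ring

/-! ### Equality of accumulators -/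

/-- all leaves agree (above the counters). -/
noncomputable def eqT (P : AT) : AT → Bool :=
  AT.rec (motive := fun _ => AT → Bool)
    (fun X Q => AT.rec (motive := fun _ => Bool)
      (fun Y => Nat.beq (Nat.shiftRight X 64) (Nat.shiftRight Y 64)) (fun _ _ _ _ => false) Q)
    (fun _ _ ia ib Q => AT.rec (motive := fun _ => Bool) (fun _ => false)
      (fun qa qb _ _ => cond (ia qa) (ib qb) false) Q) P

theorem eqT_sound {ct   : GT} : ∀ {P Q : AT} {S S' : ℕ} {V W : ℝ}, AG g ct P S V → AG g ct Q S' W →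
    S < 2 ^ 63 → S' < 2 ^ 63 → eqT P Q = true → V = W := by
  induction ct with
  | lf C =>
    intro P Q S S' V W hP hQ hS hS' hf
    cases P with
    | nd _ _ => exact absurd hP (by simp [AG])
    | lf X =>
      cases Q with
      | nd _ _ => exact absurd hQ (by simp [AG])
      | lf Y =>
        obtain ⟨T, c, h1, h2, h3⟩ := hP
        obtain ⟨T', c', h1', h2', h3'⟩ := hQ
        have hb : Nat.beq (Nat.shiftRight X 64) (Nat.shiftRight Y 64) = true := hf
        have hb' := Nat.eq_of_beq_eq_true hb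
        have e1 := shr_pk h1 (cnt_lt h2 hS)
        have e2 := shr_pk h1' (cnt_lt h2' hS')
        have e3 := pk_zero (val := fun lo => g (entG C lo)) (T := T ++ smulT (-1) T')
          (by rw [pk_append, pk_smulT, ← e1, ← e2, hb']; ring)
          (by
            rw [ms_append, ms_smulT]
            have hc : (0 : ℤ) ≤ c := by positivity
            have hc' : (0 : ℤ) ≤ c' := by positivity
            have a1 : (S : ℤ) < 2 ^ 63 := by exact_mod_cast hS
            have a2 : (S' : ℤ) < 2 ^ 63 := by exact_mod_cast hS'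
            norm_num at a1 a2 ⊢
            linarith)
        rw [vl_append, vl_smulT, h3, h3'] at e3
        push_cast at e3
        linarith
  | nd a b iha ihb =>
    intro P Q S S' V W hP hQ hS hS' hf
    cases P with
    | lf _ => exact absurd hP (by simp [AG])
    | nd pa pb' =>
      cases Q with
      | lf _ => exact absurd hQ (by simp [AG])
      | nd qa qb =>
        obtain ⟨V1, V2, h1, h2, h3⟩ := hP
        obtain ⟨W1, W2, k1, k2, k3⟩ := hQ
        have hb : cond (eqT pa qa) (eqT pb' qb) false = true := hf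
        cases hz : eqT pa qa with
        | false => rw [hz] at hb; simp at hb
        | true =>
          rw [hz] at hb
          simp only [cond_true] at hb
          rw [h3, k3, iha h1 k1 hS hS' hz, ihb h2 k2 hS hS' hb]

/-- **merging** of sparse lists. -/
noncomputable def ckMerge (ct   : GT) (Ls : List (List (ℕ × ℕ))) (out : List (ℕ × ℕ)) : Bool :=
  loadL Ls.flatten 0 (zeroT ct) (zeroT ct) fun S P Q =>
    loadL out S Q P fun S' Q' P' => cond (Nat.blt S' 9223372036854775808) (eqT P' Q') false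

theorem evL_append (ct   : GT) (A B : List (ℕ × ℕ)) : evL g ct (A ++ B) = evL g ct A + evL g ct B := by
  simp [evL]

theorem evL_flatten (ct   : GT) (Ls : List (List (ℕ × ℕ))) :
    evL g ct Ls.flatten = (Ls.map (evL g ct)).sum := by
  induction Ls with
  | nil => simp [evL]
  | cons L Ls ih => rw [List.flatten_cons, evL_append, ih]; simp

theorem ckMerge_sound {ct   : GT} {Ls : List (List (ℕ × ℕ))} {out : List (ℕ × ℕ)}
    (h : ckMerge ct Ls out = true) : (Ls.map (evL g ct)).sum = evL g ct out := by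
  unfold ckMerge at h
  obtain ⟨S1, P1, Q1, V1, W1, a1, a2, a3, a4⟩ := loadL_sound (g := g) _ _ _ _ _ _ _
    (AG.zero ct) (AG.zero ct) h
  obtain ⟨S2, Q2, P2, W2, V2, b1, b2, b3, b4⟩ := loadL_sound _ _ _ _ _ _ _ a2 a1 a4
  cases hz : Nat.blt S2 9223372036854775808 with
  | false => rw [hz] at b4; simp at b4
  | true =>
    rw [hz] at b4
    simp only [cond_true] at b4
    have hS : S2 < 2 ^ 63 := by
      rw [Nat.blt_eq] at hz
      norm_num; exact hz
    have := eqT_sound b2 b1 hS hS b4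
    rw [evL_flatten] at a3
    linarith

end Vale.Agent.P355.H693
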