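import Vale.Agent.P355.H693.GRows
import Vale.Agent.P355.H693.GAcc

/-! Lists of checked rows with multipliers, sparse output. -/

namespace Vale.Agent.P355.H693

open Finset Matrix Vale.Agent.P355 H147
open Vale.Agent.P355.H387 (seq seq_eq AT upd)

variable {m N c : ℕ} {B : Fin m → M6}

/-- class table of a tree. -/
noncomputable def tabG (ct : GT) (i : ℕ) : ℕ :=
  ct.get (Nat.land (Nat.shiftRight i 6) 4095) (Nat.land i 63)

/-- add `lam` at the class of a term. -/
noncomputable def ins1 (lam t : ℕ) (A : AT) (k : AT → Bool) : Bool :=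
  seq (Nat.land t 63) fun lo => seq (Nat.land (Nat.shiftRight t 6) 4095) fun hi =>
    A.ins hi (upd lam lo) k

variable {g : ℕ → ℝ}

theorem tabG_tId (ct : GT) (t : ℕ) :
    tabG ct (tId t) = ct.get (Nat.land (Nat.shiftRight t 6) 4095) (Nat.land t 63) := by
  unfold tabG tId
  have e1 : Nat.land (Nat.shiftRight (Nat.mod t 1048576) 6) 4095
      = Nat.land (Nat.shiftRight t 6) 4095 := by
    show ((t % 1048576) >>> 6) &&& 4095 = (t >>> 6) &&& 4095
    apply Nat.eq_of_testBit_eq
    intro i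
    have h1 : (1048576 : ℕ) = 2 ^ 20 := by norm_num
    have h2 : (4095 : ℕ) = 2 ^ 12 - 1 := by norm_num
    rw [Nat.testBit_and, Nat.testBit_and, Nat.testBit_shiftRight, Nat.testBit_shiftRight, h1, h2,
      Nat.testBit_mod_two_pow, Nat.testBit_two_pow_sub_one]
    by_cases h : i < 12
    · have : 6 + i < 20 := by omega
      simp [h, this]
    · simp [h]
  have e2 : Nat.land (Nat.mod t 1048576) 63 = Nat.land t 63 := by
    show (t % 1048576) &&& 63 = t &&& 63
    apply Nat.eq_of_testBit_eq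
    intro i
    have h1 : (1048576 : ℕ) = 2 ^ 20 := by norm_num
    have h2 : (63 : ℕ) = 2 ^ 6 - 1 := by norm_num
    rw [Nat.testBit_and, Nat.testBit_and, h1, h2, Nat.testBit_mod_two_pow,
      Nat.testBit_two_pow_sub_one]
    by_cases h : i < 6
    · have : i < 20 := by omega
      simp [h, this]
    · simp [h]
  rw [e1, e2]

theorem ins1_sound {ct : GT} {A : AT} {S : ℕ} {V : ℝ} (h : AG g ct A S V) (lam t : ℕ)
    (k : AT → Bool) (hk : ins1 lam t A k = true) :
    ∃ A', AG g ct A' (S + lam + 1) (V + lam * g (tabG ct (tId t))) ∧ k A' = true := by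
  unfold ins1 at hk
  simp only [seq_eq] at hk
  obtain ⟨A', a1, a2⟩ := h.ins _ _ _ _ hk
  exact ⟨A', by rw [tabG_tId]; exact a1, a2⟩

/-- add `lam` at all classes of a list. -/
noncomputable def insL (lam : ℕ) (pts : List ℕ) : AT → (AT → Bool) → Bool :=
  List.rec (motive := fun _ => AT → (AT → Bool) → Bool) (fun A k => k A)
    (fun t _ ih A k => ins1 lam t A fun A' => ih A' k) pts

theorem insL_sound {ct : GT} (lam : ℕ) (k : AT → Bool) (pts : List ℕ) : ∀ {A : AT} {S : ℕ} {V : ℝ},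
    AG g ct A S V → insL lam pts A k = true →
    ∃ A', AG g ct A' (S + pts.length * (lam + 1))
      (V + lam * (pts.map fun t => g (tabG ct (tId t))).sum) ∧ k A' = true := by
  induction pts with
  | nil =>
    intro A S V h hk
    exact ⟨A, by simpa using h, hk⟩
  | cons t pts ih =>
    intro A S V h hk
    have hstep : insL lam (t :: pts) A k = ins1 lam t A fun A' => insL lam pts A' k := rfl
    rw [hstep] at hk
    obtain ⟨A1, a1, a2⟩ := ins1_sound h lam t _ hk
    obtain ⟨A2, b1, b2⟩ := ih a1 a2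
    refine ⟨A2, ?_, b2⟩
    convert b1 using 1
    · rw [List.length_cons]; ring
    · rw [List.map_cons, List.sum_cons]; ring

/-- both sides of a row. -/
noncomputable def coreG (h T lam mc : ℕ) (pts : List ℕ) (A C : AT) (k : AT → AT → Bool) : Bool :=
  seq (Nat.mul 6 lam) fun l6 => ins1 l6 h A fun A1 => insL lam pts A1 fun A2 =>
    seq (Nat.mul mc lam) fun lm => ins1 lm T C fun C1 => k A2 C1

/-- length of a list. -/
def lenL (l : List ℕ) : ℕ := List.rec (motive := fun _ => ℕ) 0 (fun _ _ ih => Nat.succ ih) l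

theorem lenL_eq (l : List ℕ) : lenL l = l.length := by
  induction l with
  | nil => rfl
  | cons a l ih =>
    have : lenL (a :: l) = lenL l + 1 := rfl
    rw [this, ih, List.length_cons]

/-- one row: header (40 bits), sign of the multiplier, multiplier; main term; peers. -/
noncomputable def rowG (N c : ℕ) (ct : GT) (r : ℕ × ℕ × List ℕ) (S : ℕ) (P Q : AT)
    (k : ℕ → AT → AT → Bool) : Bool :=
  cond (rowCk N c (tabG ct) r.1 r.2.1 r.2.2)
    (seq (Nat.shiftRight r.1 41) fun lam => seq (hf r.1 4) fun mc =>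
      seq (Nat.add S (Nat.mul (Nat.succ lam) (Nat.add (Nat.add mc 8) (lenL r.2.2)))) fun S' =>
        Nat.rec (motive := fun _ => Bool)
          (coreG r.1 r.2.1 lam mc r.2.2 P Q fun P' Q' => k S' P' Q')
          (fun _ _ => coreG r.1 r.2.1 lam mc r.2.2 Q P fun Q' P' => k S' P' Q')
          (Nat.land (Nat.shiftRight r.1 40) 1)) false

theorem coreG_sound {ct : GT} {h T lam mc : ℕ} {pts : List ℕ} {A C : AT} {S : ℕ} {V W : ℝ}
    (hA : AG g ct A S V) (hC : AG g ct C S W)
    (hrow : 6 * g (tabG ct (tId h)) + (pts.map fun t => g (tabG ct (tId t))).sum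
      = (mc : ℝ) * g (tabG ct (tId T)))
    (k : AT → AT → Bool) (hk : coreG h T lam mc pts A C k = true) :
    ∃ A' C' V' W', AG g ct A' (S + (lam + 1) * (mc + 8 + pts.length)) V' ∧
      AG g ct C' (S + (lam + 1) * (mc + 8 + pts.length)) W' ∧ V' - W' = V - W ∧
      k A' C' = true := by
  unfold coreG at hk
  simp only [seq_eq] at hk
  obtain ⟨A1, a1, a2⟩ := ins1_sound hA _ _ _ hk
  obtain ⟨A2, b1, b2⟩ := insL_sound _ _ _ a1 a2
  obtain ⟨C1, c1, c2⟩ := ins1_sound hC _ _ _ b2
  refine ⟨A2, C1, _, _, b1.mono ?_, c1.mono ?_, ?_, c2⟩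
  · show S + 6 * lam + 1 + pts.length * (lam + 1) ≤ S + (lam + 1) * (mc + 8 + pts.length)
    nlinarith
  · show S + mc * lam + 1 ≤ S + (lam + 1) * (mc + 8 + pts.length)
    nlinarith [Nat.zero_le (lam * pts.length), Nat.zero_le pts.length]
  · have e1 : ((Nat.mul 6 lam : ℕ) : ℝ) = 6 * lam := by
      show ((6 * lam : ℕ) : ℝ) = _
      push_cast; ring
    have e2 : ((Nat.mul mc lam : ℕ) : ℝ) = mc * lam := by
      show ((mc * lam : ℕ) : ℝ) = _
      push_cast; ring
    rw [e1, e2]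
    linear_combination (lam : ℝ) * hrow

theorem rowG_sound (hB : IsMUBs B) {ct : GT} {r : ℕ × ℕ × List ℕ} {S : ℕ} {P Q : AT} {V W : ℝ}
    (hP : AG (cv B N c) ct P S V) (hQ : AG (cv B N c) ct Q S W)
    (k : ℕ → AT → AT → Bool) (hk : rowG N c ct r S P Q k = true) :
    ∃ S' P' Q' V' W', AG (cv B N c) ct P' S' V' ∧ AG (cv B N c) ct Q' S' W' ∧
      V' - W' = V - W ∧ k S' P' Q' = true := by
  unfold rowG at hk
  cases hck : rowCk N c (tabG ct) r.1 r.2.1 r.2.2 with
  | false => rw [hck] at hk; simp at hk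
  | true =>
    rw [hck, cond_true] at hk
    have hrow := rowCk_spec hB hck
    simp only [seq_eq] at hk
    have hS : Nat.add S (Nat.mul (Nat.succ (Nat.shiftRight r.1 41))
        (Nat.add (Nat.add (hf r.1 4) 8) (lenL r.2.2)))
        = S + (Nat.shiftRight r.1 41 + 1) * (hf r.1 4 + 8 + r.2.2.length) := by
      rw [← lenL_eq]; rfl
    rw [hS] at hk
    generalize Nat.land (Nat.shiftRight r.1 40) 1 = sg at hk
    cases sg with
    | zero =>
      obtain ⟨A', C', V', W', c1, c2, c3, c4⟩ := coreG_sound hP hQ hrow _ hk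
      exact ⟨_, A', C', V', W', c1, c2, c3, c4⟩
    | succ sg =>
      obtain ⟨A', C', V', W', c1, c2, c3, c4⟩ := coreG_sound hQ hP hrow _ hk
      exact ⟨_, C', A', W', V', c2, c1, by linarith, c4⟩

/-- a list of rows. -/
noncomputable def rowsG (N c : ℕ) (ct : GT) (L : List (ℕ × ℕ × List ℕ)) :
    ℕ → AT → AT → (ℕ → AT → AT → Bool) → Bool :=
  List.rec (motive := fun _ => ℕ → AT → AT → (ℕ → AT → AT → Bool) → Bool)
    (fun S P Q k => k S P Q)
    (fun r _ ih S P Q k => rowG N c ct r S P Q fun S' P' Q' => ih S' P' Q' k) L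

theorem rowsG_sound (hB : IsMUBs B) {ct : GT} (k : ℕ → AT → AT → Bool)
    (L : List (ℕ × ℕ × List ℕ)) : ∀ (S : ℕ) (P Q : AT) (V W : ℝ), AG (cv B N c) ct P S V →
    AG (cv B N c) ct Q S W → rowsG N c ct L S P Q k = true →
    ∃ S' P' Q' V' W', AG (cv B N c) ct P' S' V' ∧ AG (cv B N c) ct Q' S' W' ∧
      V' - W' = V - W ∧ k S' P' Q' = true := by
  induction L with
  | nil =>
    intro S P Q V W hP hQ hk
    exact ⟨S, P, Q, V, W, hP, hQ, rfl, hk⟩
  | cons r L ih =>
    intro S P Q V W hP hQ hk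
    obtain ⟨S1, P1, Q1, V1, W1, a1, a2, a3, a4⟩ := rowG_sound hB hP hQ _ hk
    obtain ⟨S2, P2, Q2, V2, W2, b1, b2, b3, b4⟩ := ih _ _ _ _ _ a1 a2 a4
    exact ⟨S2, P2, Q2, V2, W2, b1, b2, b3.trans a3, b4⟩

/-- **module of rows**: the sparse list `out` is the combination of the rows. -/
noncomputable def ckRowsG (N c : ℕ) (ct : GT) (L : List (ℕ × ℕ × List ℕ))
    (out : List (ℕ × ℕ)) : Bool :=
  rowsG N c ct L 0 (zeroT ct) (zeroT ct) fun S P Q =>
    loadL out S Q P fun S' Q' P' => cond (Nat.blt S' 9223372036854775808) (eqT P' Q') false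

theorem ckRowsG_sound (hB : IsMUBs B) {ct : GT} {L : List (ℕ × ℕ × List ℕ)}
    {out : List (ℕ × ℕ)} (h : ckRowsG N c ct L out = true) : evL (cv B N c) ct out = 0 := by
  unfold ckRowsG at h
  obtain ⟨S1, P1, Q1, V1, W1, a1, a2, a3, a4⟩ := rowsG_sound hB _ _ _ _ _ _ _
    (AG.zero ct) (AG.zero ct) h
  obtain ⟨S2, Q2, P2, W2, V2, b1, b2, b3, b4⟩ := loadL_sound _ _ _ _ _ _ _ a2 a1 a4
  cases hz : Nat.blt S2 9223372036854775808 with
  | false => rw [hz] at b4; simp at b4
  | true =>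
    rw [hz] at b4
    simp only [cond_true] at b4
    have hS : S2 < 2 ^ 63 := by
      rw [Nat.blt_eq] at hz
      norm_num; exact hz
    have := eqT_sound b2 b1 hS hS b4
    linarith

end Vale.Agent.P355.H693
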