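import Vale.Agent.P355.H693.Fin0
import Vale.Agent.P355.H693.GChk

/-! Final bookkeeping: inequalities between coloured values (as lists of coefficients and terms),
linear rows (sparse packed lists) and a negative constant. -/

namespace Vale.Agent.P355.H693

open Finset Matrix Vale.Agent.P355 H147
open Vale.Agent.P355.H387 (seq seq_eq AT upd)

set_option linter.unusedSectionVars false
set_option linter.unusedSimpArgs false

variable {m N c : ℕ} {g : ℕ → ℝ}

/-- value of a list of coefficients and terms. -/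
noncomputable def valT (g : ℕ → ℝ) (ct : GT) (l : List (ℤ × ℕ)) : ℝ :=
  (l.map fun p => (p.1 : ℝ) * g (tabG ct (tId p.2))).sum

theorem valT_append (ct : GT) (l l' : List (ℤ × ℕ)) :
    valT g ct (l ++ l') = valT g ct l + valT g ct l' := by simp [valT]

theorem valT_cons (ct : GT) (p : ℤ × ℕ) (l : List (ℤ × ℕ)) :
    valT g ct (p :: l) = (p.1 : ℝ) * g (tabG ct (tId p.2)) + valT g ct l := by simp [valT]

/-- multiple of a list. -/
def sclT (k : ℤ) (l : List (ℤ × ℕ)) : List (ℤ × ℕ) := l.map fun p => (k * p.1, p.2)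

theorem valT_scl (ct : GT) (k : ℤ) (l : List (ℤ × ℕ)) :
    valT g ct (sclT k l) = k * valT g ct l := by
  induction l with
  | nil => simp [sclT, valT]
  | cons p l ih =>
    have e : sclT k (p :: l) = (k * p.1, p.2) :: sclT k l := rfl
    rw [e, valT_cons, valT_cons, ih]
    push_cast; ring

/-- coefficient and term of a record. -/
def VR.ct (r : VR) : ℤ × ℕ := (r.a, r.T)

theorem valT_VR (ct : GT) (L : List VR) :
    valT g ct (L.map VR.ct) = (L.map fun r => (r.a : ℝ) * g (tabG ct (tId r.T))).sum := by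
  unfold valT
  rw [List.map_map]
  rfl

/-- insert a list of coefficients and terms. -/
noncomputable def insT (l : List (ℤ × ℕ)) : ℕ → AT → AT → (ℕ → AT → AT → Bool) → Bool :=
  List.rec (motive := fun _ => ℕ → AT → AT → (ℕ → AT → AT → Bool) → Bool)
    (fun S P Q k => k S P Q)
    (fun p _ ih S P Q k => Int.rec (motive := fun _ => Bool)
      (fun n => seq (Nat.add S (Nat.succ n)) fun S' => ins1 n p.2 P fun P' => ih S' P' Q k)
      (fun n => seq (Nat.add S (Nat.succ (Nat.succ n))) fun S' =>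
        ins1 (Nat.succ n) p.2 Q fun Q' => ih S' P Q' k) p.1) l

theorem insT_sound {ct : GT} (k : ℕ → AT → AT → Bool) (l : List (ℤ × ℕ)) :
    ∀ (S : ℕ) (P Q : AT) (V W : ℝ), AG g ct P S V → AG g ct Q S W → insT l S P Q k = true →
    ∃ S' P' Q' V' W', AG g ct P' S' V' ∧ AG g ct Q' S' W' ∧ V' - W' = V - W + valT g ct l ∧
      k S' P' Q' = true := by
  induction l with
  | nil =>
    intro S P Q V W hP hQ hk
    exact ⟨S, P, Q, V, W, hP, hQ, by simp [valT], hk⟩
  | cons p l ih =>
    intro S P Q V W hP hQ hk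
    obtain ⟨a, t⟩ := p
    rw [valT_cons]
    cases a with
    | ofNat n =>
      have hstep : insT ((Int.ofNat n, t) :: l) S P Q k
        = seq (Nat.add S (Nat.succ n)) fun S' => ins1 n t P fun P' => insT l S' P' Q k := rfl
      rw [hstep, seq_eq] at hk
      obtain ⟨P1, a1, a2⟩ := ins1_sound hP n t _ hk
      have hS : Nat.add S (Nat.succ n) = S + n + 1 := rfl
      rw [hS] at a2
      obtain ⟨S2, P2, Q2, V2, W2, b1, b2, b3, b4⟩ := ih _ _ _ _ _ a1
        (hQ.mono (by omega : S ≤ S + n + 1)) a2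
      refine ⟨S2, P2, Q2, V2, W2, b1, b2, ?_, b4⟩
      rw [b3]
      simp only [Int.ofNat_eq_natCast, Int.cast_natCast]
      ring
    | negSucc n =>
      have hstep : insT ((Int.negSucc n, t) :: l) S P Q k
        = seq (Nat.add S (Nat.succ (Nat.succ n))) fun S' =>
          ins1 (Nat.succ n) t Q fun Q' => insT l S' P Q' k := rfl
      rw [hstep, seq_eq] at hk
      obtain ⟨Q1, a1, a2⟩ := ins1_sound hQ (Nat.succ n) t _ hk
      have hS : Nat.add S (Nat.succ (Nat.succ n)) = S + Nat.succ n + 1 := rfl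
      rw [hS] at a2
      obtain ⟨S2, P2, Q2, V2, W2, b1, b2, b3, b4⟩ := ih _ _ _ _ _
        (hP.mono (by omega : S ≤ S + Nat.succ n + 1)) a1 a2
      refine ⟨S2, P2, Q2, V2, W2, b1, b2, ?_, b4⟩
      rw [b3]
      simp only [Int.cast_negSucc]
      push_cast
      ring

/-- **Final check**: the sum of the inequalities is a combination of the rows. -/
noncomputable def ckFinG (ct : GT) (l : List (ℤ × ℕ)) (out : List (ℕ × ℕ)) : Bool :=
  insT l 0 (zeroT ct) (zeroT ct) fun S P Q =>
    loadL out S Q P fun S' Q' P' => cond (Nat.blt S' 9223372036854775808) (eqT P' Q') false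

theorem ckFinG_sound {ct : GT} {l : List (ℤ × ℕ)} {out : List (ℕ × ℕ)}
    (h : ckFinG ct l out = true) : valT g ct l = evL g ct out := by
  unfold ckFinG at h
  obtain ⟨S1, P1, Q1, V1, W1, a1, a2, a3, a4⟩ := insT_sound (g := g) _ _ _ _ _ _ _
    (AG.zero ct) (AG.zero ct) h
  obtain ⟨S2, Q2, P2, W2, V2, b1, b2, b3, b4⟩ := loadL_sound _ _ _ _ _ _ _ a2 a1 a4
  cases hz : Nat.blt S2 9223372036854775808 with
  | false => rw [hz] at b4; simp at b4
  | true =>
    rw [hz] at b4
    simp only [cond_true] at b4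
    have hS : S2 < 2 ^ 63 := by
      rw [Nat.blt_eq] at hz
      norm_num; exact hz
    have := eqT_sound b2 b1 hS hS b4
    linarith

/-- **No `m` bases**: nonnegative lists `l`, rows `out` with value `0`, constant `de > 0`. -/
theorem no_mubs_sum {B : Fin m → M6} (hB : IsMUBs B) (hcm : c ≤ m) {ct : GT}
    {l : List (ℤ × ℕ)} {out : List (ℕ × ℕ)} {T0 de : ℕ} (hde : 0 < de)
    (h0 : tck N c (tabG ct) 0 (fun _ => 0) (fun _ _ => 96) T0 = true)
    (hl : 0 ≤ valT (cv B N c) ct l) (ho : evL (cv B N c) ct out = 0)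
    (hck : ckFinG ct (l ++ [((de : ℤ), T0)]) out = true) : False := by
  have h1 := ckFinG_sound (g := cv B N c) hck
  rw [ho, valT_append, valT_cons] at h1
  have h2 : valT (cv B N c) ct [] = 0 := rfl
  rw [h2] at h1
  have h3 : cv B N c (tabG ct (tId T0)) = 1 := empty_key hB hcm h0
  rw [h3] at h1
  have h4 : (0 : ℝ) < de := by exact_mod_cast hde
  push_cast at h1
  linarith

/-- the triangle as a list. -/
theorem tri_T {B : Fin 5 → M6} (hB : IsMUBs B) (hc : 3 ≤ c) (hcm : c ≤ 5) (hN : 3 ≤ N)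
    {ct : GT} {T al : ℕ} (h : tck N c (tabG ct) 0 wTri gTri T = true) :
    0 ≤ valT (cv B N c) ct [((al : ℤ), T)] := by
  rw [valT_cons]
  have h2 : valT (cv B N c) ct [] = 0 := rfl
  rw [h2]
  have := tri_nonneg hB hc hcm hN h
  push_cast
  positivity

/-- the square (K) as a list. -/
def listKT (m be T2 T3 T0 : ℕ) : List (ℤ × ℕ) :=
  [((be : ℤ) * 6, T2), ((be : ℤ) * (6 * ((m : ℤ) - 2)), T3), (-((be : ℤ) * ((m : ℤ) - 1)), T0)]

theorem K_T {B : Fin m → M6} (hB : IsMUBs B) (hm : 3 ≤ m) (hc : 3 ≤ c) (hcm : c ≤ m)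
    (hN : 4 ≤ N) {ct : GT} {be T2 T3 T0 : ℕ} (h2 : tck N c (tabG ct) 0 wK2 gK T2 = true)
    (h3 : tck N c (tabG ct) 0 wK3 gK T3 = true)
    (h0 : tck N c (tabG ct) 0 (fun _ => 0) (fun _ _ => 96) T0 = true) :
    0 ≤ valT (cv B N c) ct (listKT m be T2 T3 T0) := by
  have h := K_key hB hm hc hcm hN h2 h3 h0
  have e : valT (cv B N c) ct (listKT m be T2 T3 T0)
      = be * valA (fun i => cv B N c (tabG ct i)) (listK m T2 T3 T0) := by
    simp only [valT, listKT, valA, listK, List.map_cons, List.map_nil, List.sum_cons,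
      List.sum_nil]
    push_cast
    ring
  rw [e]
  positivity

/-- an unmarked pointwise inequality as a list. -/
theorem V_T {B : Fin m → M6} (hB : IsMUBs B) (hc : 3 ≤ c) {K : ℕ} {ct : GT} {L : List VR}
    (hL : (L.all fun r => r.ok N c K (tabG ct) 6 0) = true)
    (hQ : ∀ x, H138.Good false x → H182.N7x x → 0 ≤ H129.lval K x (L.map VR.term)) :
    0 ≤ valT (cv B N c) ct (L.map VR.ct) := by
  rw [valT_VR]
  exact vr_nonneg (N := N) hB hc (wb := 6) (wb' := 0) (tab := tabG ct) (by norm_num) (by norm_num)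
    (fun h => absurd h (by norm_num)) hL
    (fun e b b' _ => hQ _ (xF_good hB hc 0 e b b') (xF_n7 hB hc 0 e b b'))

/-- a pointwise inequality for frames with a mark in a fourth basis as a list. -/
theorem Vm_T {B : Fin m → M6} (hB : IsMUBs B) (hc : 4 ≤ c) {K : ℕ} {ct : GT}
    {L : List VR} (hL : (L.all fun r => r.ok N c K (tabG ct) 6 8) = true)
    (hQ : ∀ x, H138.Good true x → H182.N7x x → 0 ≤ H129.lval K x (L.map VR.term)) :
    0 ≤ valT (cv B N c) ct (L.map VR.ct) := by
  have h := ineq_Vm hB hc hL hQ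
  rw [valA_collA] at h
  rw [valT_VR]
  exact h

/-- a pointwise inequality for frames with an orthogonal mark as a list. -/
theorem V0_T {B : Fin m → M6} (hB : IsMUBs B) (hc : 3 ≤ c) {K : ℕ} {ct : GT}
    {L L0 : List VR} (hL : (L.all fun r => r.ok N c K (tabG ct) 7 7) = true)
    (hL0 : (L0.all fun r => r.ok N c K (tabG ct) 6 0) = true)
    (hQ : ∀ x, Ext0 x → H182.N7x x →
      0 ≤ H129.lval K x (L.map VR.term) + H129.lval K x (L0.map VR.term)) :
    0 ≤ valT (cv B N c) ct (sclT 6 (L.map VR.ct) ++ sclT 5 (L0.map VR.ct)) := by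
  rw [valT_append, valT_scl, valT_scl, valT_VR, valT_VR]
  have := ineq_V0' hB hc hL hL0 hQ
  push_cast
  exact this

end Vale.Agent.P355.H693
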