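import Vale.Agent.P355.H693.KKey
import Vale.Agent.P355.H693.RowZ

/-! Frames with a mark orthogonal to the gauge vector: marked and unmarked records together. -/

namespace Vale.Agent.P355.H693

open Finset Matrix Vale.Agent.P355

set_option linter.unusedSectionVars false
set_option linter.unusedSimpArgs false

variable {m N c : ℕ}

section unmarked
variable {P Q : Type} [Fintype P] [Fintype Q] [DecidableEq P] [DecidableEq Q]

theorem gv_congr_un {x y : Fin 7 → Fin 7 → ℂ}
    (h : ∀ a b : Fin 6, x a.castSucc b.castSucc = y a.castSucc b.castSucc)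
    {n : Option P → Option Q → ℤ} (h1 : ∀ q, n none q = 0) (h2 : ∀ p, n p none = 0) :
    H138.gv x n = H138.gv y n := by
  unfold H138.gv
  congr 1
  refine Finset.sum_congr rfl fun φ _ => Finset.sum_congr rfl fun ψ _ => ?_
  unfold H138.mon
  refine Finset.prod_congr rfl fun p _ => Finset.prod_congr rfl fun q _ => ?_
  cases p with
  | none => rw [h1, zpow_zero, zpow_zero]
  | some p =>
    cases q with
    | none => rw [h2, zpow_zero, zpow_zero]
    | some q => rw [H138.ex_some, H138.ex_some, h]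

theorem rv_congr_un {x y : Fin 7 → Fin 7 → ℂ}
    (h : ∀ a b : Fin 6, x a.castSucc b.castSucc = y a.castSucc b.castSucc) (par : Bool)
    {n : Option P → Option Q → ℤ} (h1 : ∀ q, n none q = 0) (h2 : ∀ p, n p none = 0) :
    H138.rv x par n = H138.rv y par n := by
  unfold H138.rv
  rw [gv_congr_un h h1 h2,
    gv_congr_un (x := fun r c => x c r) (y := fun r c => y c r) (fun a b => h b a) h1 h2]

end unmarked

theorem xF_un (B : Fin m → M6) (hc : 3 ≤ c) (w w' : ℕ) (e : Fin c ↪ Fin m) (b b' b'' : Fin 6)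
    (p q : Fin 6) :
    xF B hc w e b b' p.castSucc q.castSucc = xF B hc w' e b b'' p.castSucc q.castSucc := by
  have h1 : ∀ w b', ∃ u', xF B hc w e b b' = xm B (e ⟨0, by omega⟩) (e ⟨1, by omega⟩)
      (e ⟨2, by omega⟩, b) u' := fun w b' => ⟨_, rfl⟩
  obtain ⟨u1, h1'⟩ := h1 w b'
  obtain ⟨u2, h2'⟩ := h1 w' b''
  rw [h1', h2', xm_ac, xm_ac]

/-- average over ordered pairs of different vectors of a function of the first. -/
theorem avF_77 (G : (Fin c ↪ Fin m) → Fin 6 → ℝ) :
    avF m c 7 7 (fun e b _ => G e b) = 5 / 6 * avF m c 6 0 (fun e b _ => G e b) := by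
  have ok1 : ∀ b b', okW2 c 7 7 b b' ↔ b ≠ b' := by
    intro b b'
    unfold okW2
    constructor
    · intro h; exact h ⟨rfl, rfl, rfl⟩
    · intro h _; exact h
  have ok2 : ∀ b b', okW2 c 6 0 b b' := by
    intro b b' h
    exact absurd h.1 (by decide)
  have e1 : ∀ (e : Fin c ↪ Fin m) (b : Fin 6),
      (∑ b' : Fin 6, if okW2 c 7 7 b b' then G e b else 0) = 5 * G e b := by
    intro e b
    have h2 : ∀ b', (if okW2 c 7 7 b b' then G e b else 0) = if b = b' then 0 else G e b := by
      intro b'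
      by_cases h : b = b'
      · rw [if_pos h, if_neg (by rw [ok1]; exact fun h2 => h2 h)]
      · rw [if_neg h, if_pos ((ok1 b b').2 h)]
    simp only [h2]
    fin_cases b <;> simp [Fin.sum_univ_six] <;> ring
  have e2 : ∀ (e : Fin c ↪ Fin m) (b : Fin 6),
      (∑ b' : Fin 6, if okW2 c 6 0 b b' then G e b else 0) = 6 * G e b := by
    intro e b
    have h2 : ∀ b', (if okW2 c 6 0 b b' then G e b else 0) = G e b := fun b' => if_pos (ok2 b b')
    simp only [h2, Finset.sum_const, Finset.card_univ, Fintype.card_fin, nsmul_eq_mul]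
    norm_num
  unfold avF
  simp only [e1, e2, ← Finset.mul_sum]
  ring

/-- an unmarked record in frames with a mark in the basis of the gauge vector. -/
theorem VR.ok_spec0 {B : Fin m → M6} (hB : IsMUBs B) (hc : 3 ≤ c) {K : ℕ} {tab : ℕ → ℕ}
    {r : VR} (h : r.ok N c K tab 6 0 = true) :
    avF m c 7 7 (fun e b b' => H138.cv K (xF B hc 7 e b b') r.par r.code)
      = 5 / 6 * H147.cv B N c (tab (tId r.T)) := by
  rw [← VR.ok_spec hB hc (by norm_num) (by norm_num) (fun h => absurd h (by norm_num)) h]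
  unfold VR.ok at h
  simp only [Bool.and_eq_true, decide_eq_true_eq, Bool.or_eq_true, beq_iff_eq] at h
  obtain ⟨⟨⟨⟨⟨⟨⟨⟨hP, hQ⟩, hN⟩, hs⟩, h00⟩, hmk⟩, hcd⟩, hbd⟩, ht⟩ := h
  have hcode : ∀ x, H138.rv x r.par (nV r.P r.Q r.l) = H138.cv K x r.par r.code := fun x =>
    H138.rv_eq_cv (Fin.castLE hP) (Fin.castLE hQ) (Fin.castLE_injective hP)
      (Fin.castLE_injective hQ) _ (smV_spec hs) _ _ (by rw [codeE_V, hcd])
  have hmk2 : (∀ q, nV r.P r.Q r.l none q = 0) ∧ (∀ p, nV r.P r.Q r.l p none = 0) := by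
    rcases hmk with hmk | ⟨m1, m2⟩
    · omega
    · constructor
      · intro q
        cases q with
        | none => exact h00
        | some j =>
          have := H138.allLe_spec' m2 ((j : ℕ) + 1) (by have := j.2; omega)
          have h3 : nn r.Q r.l 0 ((j : ℕ) + 1) = 0 := by simpa using this
          exact h3
      · intro p
        cases p with
        | none => exact h00
        | some i =>
          have := H138.allLe_spec' m1 ((i : ℕ) + 1) (by have := i.2; omega)
          have h3 : nn r.Q r.l ((i : ℕ) + 1) 0 = 0 := by simpa using this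
          exact h3
  have h1 : ∀ (e : Fin c ↪ Fin m) (b b' : Fin 6) (w : ℕ) (b'' : Fin 6),
      H138.cv K (xF B hc w e b b') r.par r.code
      = H138.cv K (xF B hc 0 e b b'') r.par r.code := by
    intro e b b' w b''
    rw [← hcode, ← hcode]
    exact rv_congr_un (fun p q => xF_un B hc w 0 e b b' b'' p q) _ hmk2.1 hmk2.2
  have e1 : (fun (e : Fin c ↪ Fin m) b b' => H138.cv K (xF B hc 7 e b b') r.par r.code)
      = fun e b _ => H138.cv K (xF B hc 0 e b 0) r.par r.code := by
    funext e b b'
    exact h1 e b b' 7 0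
  have e2 : (fun (e : Fin c ↪ Fin m) b b' => H138.cv K (xF B hc 0 e b b') r.par r.code)
      = fun e b _ => H138.cv K (xF B hc 0 e b 0) r.par r.code := by
    funext e b b'
    exact h1 e b b' 0 0
  rw [e1, e2]
  exact avF_77 (fun e b => H138.cv K (xF B hc 0 e b 0) r.par r.code)

/-- lists of unmarked records. -/
theorem avF_list0 {B : Fin m → M6} (hB : IsMUBs B) (hc : 3 ≤ c) {K : ℕ} {tab : ℕ → ℕ} :
    ∀ {L : List VR}, (L.all fun r => r.ok N c K tab 6 0) = true →
    avF m c 7 7 (fun e b b' => H129.lval K (xF B hc 7 e b b') (L.map VR.term))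
      = 5 / 6 * (L.map fun r => (r.a : ℝ) * H147.cv B N c (tab (tId r.T))).sum
  | [], _ => by
    simp only [H129.lval, List.map_nil, List.sum_nil, mul_zero]
    exact avF_zero 7 7
  | r :: L, h => by
    rw [List.all_cons, Bool.and_eq_true] at h
    have ih := avF_list0 hB hc h.2
    have h1 : (fun (e : Fin c ↪ Fin m) b b' =>
          H129.lval K (xF B hc 7 e b b') ((r :: L).map VR.term))
        = fun e b b' => (r.a : ℝ) * H138.cv K (xF B hc 7 e b b') r.par r.code
          + H129.lval K (xF B hc 7 e b b') (L.map VR.term) := by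
      funext e b b'
      simp only [H129.lval, List.map_cons, List.sum_cons, VR.term]
    rw [h1, avF_add, avF_mul, VR.ok_spec0 hB hc h.1, ih, List.map_cons, List.sum_cons]
    ring

/-- **Marked and unmarked records in frames with an orthogonal mark.** -/
theorem ineq_V0' {B : Fin m → M6} (hB : IsMUBs B) (hc : 3 ≤ c) {K : ℕ} {tab : ℕ → ℕ}
    {L L0 : List VR} (hL : (L.all fun r => r.ok N c K tab 7 7) = true)
    (hL0 : (L0.all fun r => r.ok N c K tab 6 0) = true)
    (hQ : ∀ x, Ext0 x → H182.N7x x →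
      0 ≤ H129.lval K x (L.map VR.term) + H129.lval K x (L0.map VR.term)) :
    0 ≤ 6 * (L.map fun r => (r.a : ℝ) * H147.cv B N c (tab (tId r.T))).sum
      + 5 * (L0.map fun r => (r.a : ℝ) * H147.cv B N c (tab (tId r.T))).sum := by
  have h8 : w2c c 7 ≠ none := by
    unfold w2c
    rw [dif_pos (by omega)]
    exact Option.some_ne_none _
  have h1 := avF_nonneg (m := m) (c := c) 7 7 (F := fun e b b' =>
      H129.lval K (xF B hc 7 e b b') (L.map VR.term)
        + H129.lval K (xF B hc 7 e b b') (L0.map VR.term))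
    (fun e b b' hbb => hQ _ (xF_ext0 hB hc rfl rfl e b b' hbb) (xF_n7 hB hc 7 e b b'))
  rw [avF_add, avF_list hB hc (by norm_num) (by norm_num) (fun _ => h8) hL, avF_list0 hB hc hL0]
    at h1
  linarith

end Vale.Agent.P355.H693
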