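import Vale.Agent.P355.H693.GRows

/-! The contraction rules in real form, without keys. -/

namespace Vale.Agent.P355.H693

open Finset Matrix Vale.Agent.P355 H147

variable {m N c : ℕ} {B : Fin m → M6} {lab : Fin N → Bool}

theorem re6m (z : ℂ) : (6 * z).re = 6 * z.re := by
  have : (6 : ℂ) = ((6 : ℝ) : ℂ) := by norm_num
  rw [this, Complex.re_ofReal_mul]

/-- a vertex without flow. -/
theorem re_rule0 (hB : IsMUBs B) (col : Fin N → Option (Fin c)) (f : Fin N → Fin N → ℤ)
    (x : Fin N) (hx : col x ≠ none) (h0 : Lev0 col f x) :
    6 * (gv B col lab f).re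
      = (6 - ((peers col lab x).card : ℝ)) * (gv B (era col x) lab f).re := by
  have hr := congrArg Complex.re (rule0 hB col (lab := lab) f x hx h0)
  rw [re6m, Complex.sub_re, re6m, Complex.re_sum] at hr
  have hm : ∀ p ∈ peers col lab x,
      (gv B (era col x) lab (mrg f x p)).re = (gv B (era col x) lab f).re := by
    intro p hp
    refine congrArg Complex.re (gv_congr hB _ _ _ fun a a' ha ha' haa => ?_)
    have hpx : col p = col x := by
      unfold peers at hp
      rw [mem_filter] at hp
      exact hp.2.2.2.2
    have na : ∀ q : Fin N, era col x q ≠ none → q ≠ x := by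
      intro q hq h'
      subst h'
      exact hq (by unfold era; simp)
    have ne : ∀ q : Fin N, q ≠ x → era col x q = col q := by
      intro q hq; unfold era; rw [Function.update_of_ne hq]
    have hn := net_mrg f x p a a'
    have z1 : (if a = p then net f x a' else 0) = 0 := by
      split_ifs with h1
      · have h2 : col a' ≠ col x := by
          rw [← hpx, ← h1]
          rw [ne _ (na _ ha), ne _ (na _ ha')] at haa
          exact fun h' => haa h'.symm
        have h3 := h0 a' (by rw [← ne _ (na _ ha')]; exact ha') h2
        unfold net; exact h3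
      · rfl
    have z2 : (if a' = p then net f a x else 0) = 0 := by
      split_ifs with h1
      · have h2 : col a ≠ col x := by
          rw [← hpx, ← h1]
          rw [ne _ (na _ ha), ne _ (na _ ha')] at haa
          exact haa
        have h3 := h0 a (by rw [← ne _ (na _ ha)]; exact ha) h2
        unfold net; linarith
      · rfl
    rw [z1, z2, add_zero, add_zero] at hn
    exact hn
  rw [Finset.sum_congr rfl hm, Finset.sum_const, nsmul_eq_mul] at hr
  linear_combination hr

/-- contraction, different colours. -/
theorem re_rule1 (hB : IsMUBs B) (col : Fin N → Option (Fin c)) (f : Fin N → Fin N → ℤ)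
    (x w y : Fin N) (hx : col x ≠ none) (h1 : Lev1 col f x w y) (hc : col w ≠ col y) :
    6 * (gv B col lab f).re + ∑ p ∈ peers col lab x, (gv B (era col x) lab (mrg f x p)).re
      = Real.sqrt 6 * (gv B (era col x) lab (addE f w y)).re := by
  have hr := congrArg Complex.re (rule1 hB col (lab := lab) f x w y hx h1 hc)
  rw [re6m, Complex.sub_re, r6_re, Complex.re_sum] at hr
  linear_combination hr

/-- contraction, two labelled slots of one colour. -/
theorem re_rule1s (hB : IsMUBs B) (col : Fin N → Option (Fin c)) (f : Fin N → Fin N → ℤ)
    (x w y : Fin N) (hx : col x ≠ none) (h1 : Lev1 col f x w y) (hc : col w = col y)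
    (lw : lab w = true) (ly : lab y = true) :
    6 * (gv B col lab f).re + ∑ p ∈ peers col lab x, (gv B (era col x) lab (mrg f x p)).re
      = 0 := by
  have hr := congrArg Complex.re (rule1s hB col (lab := lab) f x w y hx h1 hc lw ly)
  rw [re6m, Complex.neg_re, Complex.re_sum] at hr
  linear_combination hr

/-- contraction, `w` free of the colour of `y`. -/
theorem re_rule1w (hB : IsMUBs B) (col : Fin N → Option (Fin c)) (f : Fin N → Fin N → ℤ)
    (x w y : Fin N) (hx : col x ≠ none) (h1 : Lev1 col f x w y) (hc : col w = col y)
    (lw : lab w = false) :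
    6 * (gv B col lab f).re + ∑ p ∈ peers col lab x, (gv B (era col x) lab (mrg f x p)).re
      = (gv B (era (era col x) w) lab (mrg f w y)).re := by
  have hr := congrArg Complex.re (rule1w hB col (lab := lab) f x w y hx h1 hc lw)
  rw [re6m, Complex.sub_re, Complex.re_sum] at hr
  linear_combination hr

/-- contraction, `y` free of the colour of `w`. -/
theorem re_rule1y (hB : IsMUBs B) (col : Fin N → Option (Fin c)) (f : Fin N → Fin N → ℤ)
    (x w y : Fin N) (hx : col x ≠ none) (h1 : Lev1 col f x w y) (hc : col w = col y)
    (ly : lab y = false) :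
    6 * (gv B col lab f).re + ∑ p ∈ peers col lab x, (gv B (era col x) lab (mrg f x p)).re
      = (gv B (era (era col x) y) lab (mrg f y w)).re := by
  have hr := congrArg Complex.re (rule1y hB col (lab := lab) f x w y hx h1 hc ly)
  rw [re6m, Complex.sub_re, Complex.re_sum] at hr
  linear_combination hr

/-- freeing a labelled slot. -/
theorem re_ruleF (hB : IsMUBs B) (col : Fin N → Option (Fin c)) (f : Fin N → Fin N → ℤ)
    (x : Fin N) (hx : col x ≠ none) :
    6 * (gv B col lab f).re + ∑ p ∈ peers col lab x, (gv B (era col x) lab (mrg f x p)).re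
      = 6 * (gv B col (Function.update lab x false) f).re := by
  have hr := congrArg Complex.re (ruleF hB col (lab := lab) f x hx)
  rw [re6m, Complex.sub_re, re6m, Complex.re_sum] at hr
  linear_combination hr

/-- more than six distinct vertices of one basis. -/
theorem re_zero (col : Fin N → Option (Fin c)) (f : Fin N → Fin N → ℤ)
    (x : Fin N) (hx : col x ≠ none) (lx : lab x = true) (h : 6 ≤ (peers col lab x).card) :
    6 * (gv B col lab f).re = 0 := by
  rw [gv_zero col lab f x hx lx h]; simp

end Vale.Agent.P355.H693
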