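import Vale.Agent.P355.H693.GFin
import Vale.Agent.P355.H147.Legs2

/-! Determinant rows: Gram minors of order seven of vectors of `ℂ⁶` vanish. -/

namespace Vale.Agent.P355.H693

open Finset Matrix Vale.Agent.P355 H147
open Vale.Agent.P355.H129 (force force_eq)

set_option linter.unusedSectionVars false
set_option linter.unusedSimpArgs false

/-! ### Laplace expansion on lists -/

/-- all choices of an element of a list, with the sign of its position and the rest. -/
def picks : List ℕ → List (Bool × ℕ × List ℕ)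
  | [] => []
  | t :: ts => (false, t, ts) :: (picks ts).map fun p => (!p.1, p.2.1, t :: p.2.2)

/-- sign. -/
def sgB (s : Bool) : ℂ := if s = true then -1 else 1

/-- determinant on lists. -/
noncomputable def dL (f : ℕ → ℕ → ℂ) : List ℕ → List ℕ → ℂ
  | [], _ => 1
  | r :: rs, ts => ((picks ts).map fun p => sgB p.1 * (f r p.2.1 * dL f rs p.2.2)).sum

theorem picks_sum (G : Bool → ℕ → List ℕ → ℂ) : ∀ ts : List ℕ,
    ((picks ts).map fun p => G p.1 p.2.1 p.2.2).sum
      = ∑ k ∈ range ts.length, G (decide (k % 2 = 1)) (ts.getD k 0) (ts.eraseIdx k) := by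
  intro ts
  induction ts generalizing G with
  | nil => simp [picks]
  | cons t ts ih =>
    have e1 : (picks (t :: ts)).map (fun p => G p.1 p.2.1 p.2.2)
        = G false t ts :: (picks ts).map (fun p => G (!p.1) p.2.1 (t :: p.2.2)) := by
      rw [picks, List.map_cons, List.map_map]; rfl
    rw [e1, List.sum_cons, ih (fun b u r => G (!b) u (t :: r)), List.length_cons,
      Finset.sum_range_succ']
    rw [add_comm]
    congr 1
    refine Finset.sum_congr rfl fun k _ => ?_
    have h1 : (!decide (k % 2 = 1)) = decide ((k + 1) % 2 = 1) := by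
      by_cases h : k % 2 = 1
      · have : ¬ (k + 1) % 2 = 1 := by omega
        simp [h, this]
      · have : (k + 1) % 2 = 1 := by omega
        simp [h, this]
    rw [h1]
    rfl

theorem sgB_pow (k : ℕ) : sgB (decide (k % 2 = 1)) = (-1) ^ k := by
  unfold sgB
  rcases Nat.mod_two_eq_zero_or_one k with h | h
  · rw [h]; simp [(Nat.even_iff.2 h).neg_one_pow]
  · rw [h]; simp [(Nat.odd_iff.2 h).neg_one_pow]

theorem getD_eraseIdx (ts : List ℕ) (k j : ℕ) :
    (ts.eraseIdx k).getD j 0 = if j < k then ts.getD j 0 else ts.getD (j + 1) 0 := by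
  simp only [List.getD_eq_getElem?_getD, List.getElem?_eraseIdx]
  split_ifs <;> rfl

theorem dL_det (f : ℕ → ℕ → ℂ) : ∀ (n : ℕ) (rs ts : List ℕ), rs.length = n → ts.length = n →
    dL f rs ts = Matrix.det (Matrix.of fun i j : Fin n => f (rs.getD i 0) (ts.getD j 0)) := by
  intro n
  induction n with
  | zero =>
    intro rs ts hr ht
    rw [List.length_eq_zero_iff.1 hr]
    simp [dL]
  | succ n ih =>
    intro rs ts hr ht
    cases rs with
    | nil => simp at hr
    | cons r rs =>
      have hr' : rs.length = n := by simpa using hr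
      rw [Matrix.det_succ_row_zero, dL,
        picks_sum (fun b u l => sgB b * (f r u * dL f rs l)) ts, ht, Finset.sum_range]
      refine Finset.sum_congr rfl fun k _ => ?_
      rw [sgB_pow, mul_assoc]
      congr 2
      have hl : (ts.eraseIdx k).length = n := by
        rw [List.length_eraseIdx_of_lt (by rw [ht]; exact k.2), ht]; rfl
      rw [ih rs (ts.eraseIdx k) hr' hl]
      congr 1
      ext i j
      simp only [Matrix.submatrix_apply, Matrix.of_apply, Fin.val_succ, List.getD_cons_succ]
      rw [getD_eraseIdx]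
      congr 1
      by_cases h : (j : ℕ) < k
      · rw [if_pos h, Fin.succAbove_of_castSucc_lt _ _ (by rw [Fin.lt_def]; exact h)]
        rfl
      · rw [if_neg h, Fin.succAbove_of_le_castSucc _ _ (by rw [Fin.le_def]; exact not_lt.1 h)]
        rfl

/-! ### Seven vectors of `ℂ⁶` -/

variable {m N c : ℕ} {B : Fin m → M6} {lab : Fin N → Bool}

theorem det7 (B : Fin m → M6) (x y : Fin 7 → Fin m × Fin 6) :
    Matrix.det (Matrix.of fun i j : Fin 7 => ipr B (x i) (y j)) = 0 := by
  set R : Matrix (Fin 7) (Fin 7) ℂ := Matrix.of fun i k =>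
    (Fin.lastCases (motive := fun _ => ℂ) 0 (fun k : Fin 6 => star (B (x i).1 k (x i).2)) k) with hR
  set T : Matrix (Fin 7) (Fin 7) ℂ := Matrix.of fun k j =>
    (Fin.lastCases (motive := fun _ => ℂ) 0 (fun k : Fin 6 => B (y j).1 k (y j).2) k) with hT
  have e : (Matrix.of fun i j : Fin 7 => ipr B (x i) (y j)) = R * T := by
    ext i j
    rw [Matrix.mul_apply, Fin.sum_univ_castSucc]
    simp only [hR, hT, Matrix.of_apply, Fin.lastCases_last, Fin.lastCases_castSucc, mul_zero,
      add_zero]
    unfold ipr
    rw [Matrix.mul_apply]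
    rfl
  rw [e, Matrix.det_mul]
  have h0 : T.det = 0 := Matrix.det_eq_zero_of_row_eq_zero (Fin.last 6) fun j => by
    simp only [hT, Matrix.of_apply, Fin.lastCases_last]
  rw [h0, mul_zero]

/-! ### Leaves of the expansion -/

/-- leaves: sign and pairs of different colours. -/
def lvs (cw : ℕ → ℕ) : List ℕ → List ℕ → List (Bool × List (ℕ × ℕ))
  | [], _ => [(false, [])]
  | r :: rs, ts => (picks ts).flatMap fun p =>
      cond (Nat.beq r p.2.1) ((lvs cw rs p.2.2).map fun l => (xor p.1 l.1, l.2))
        (cond (Nat.beq (cw r) (cw p.2.1)) []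
          ((lvs cw rs p.2.2).map fun l => (xor p.1 l.1, (r, p.2.1) :: l.2)))

theorem sgB_xor (a b : Bool) : sgB (xor a b) = sgB a * sgB b := by
  cases a <;> cases b <;> simp [sgB]

theorem picks_mem : ∀ {ts : List ℕ} {p : Bool × ℕ × List ℕ}, p ∈ picks ts →
    p.2.1 ∈ ts ∧ ∀ x ∈ p.2.2, x ∈ ts := by
  intro ts
  induction ts with
  | nil => intro p hp; simp [picks] at hp
  | cons t ts ih =>
    intro p hp
    rw [picks, List.mem_cons] at hp
    rcases hp with rfl | hp
    · exact ⟨List.mem_cons_self, fun x hx => List.mem_cons_of_mem _ hx⟩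
    · rw [List.mem_map] at hp
      obtain ⟨q, hq, rfl⟩ := hp
      obtain ⟨h1, h2⟩ := ih hq
      refine ⟨List.mem_cons_of_mem _ h1, fun x hx => ?_⟩
      rw [List.mem_cons] at hx ⊢
      rcases hx with rfl | hx
      · exact Or.inl rfl
      · exact Or.inr (h2 x hx)

theorem sum_flatMap_c {α β : Type} (l : List α) (f : α → List β) (G : β → ℂ) :
    ((l.flatMap f).map G).sum = (l.map fun a => ((f a).map G).sum).sum := by
  induction l with
  | nil => simp
  | cons a l ih => rw [List.flatMap_cons, List.map_append, List.sum_append, ih]; simp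

theorem sum_mul_c {α : Type} (l : List α) (a : ℂ) (G : α → ℂ) :
    (l.map fun x => a * G x).sum = a * (l.map G).sum := by
  induction l with
  | nil => simp
  | cons x l ih => rw [List.map_cons, List.sum_cons, ih, List.map_cons, List.sum_cons]; ring

theorem lvs_sum (f : ℕ → ℕ → ℂ) (cw : ℕ → ℕ) : ∀ (rs ts : List ℕ),
    (∀ r ∈ rs, ∀ t ∈ ts, r = t → f r t = 1) →
    (∀ r ∈ rs, ∀ t ∈ ts, r ≠ t → cw r = cw t → f r t = 0) →
    ((lvs cw rs ts).map fun l => sgB l.1 * (l.2.map fun p => f p.1 p.2).prod).sum
      = dL f rs ts := by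
  intro rs
  induction rs with
  | nil => intro ts _ _; simp [lvs, dL, sgB]
  | cons r rs ih =>
    intro ts h1 h2
    rw [lvs, sum_flatMap_c, dL]
    congr 1
    refine List.map_congr_left fun p hp => ?_
    obtain ⟨m1, m2⟩ := picks_mem hp
    have ih' := ih p.2.2 (fun r hr t ht => h1 r (List.mem_cons_of_mem _ hr) t (m2 t ht))
      (fun r hr t ht => h2 r (List.mem_cons_of_mem _ hr) t (m2 t ht))
    cases e1 : Nat.beq r p.2.1 with
    | true =>
      have e2 : r = p.2.1 := Nat.eq_of_beq_eq_true e1
      rw [cond_true, List.map_map, ← ih', h1 r List.mem_cons_self p.2.1 m1 e2, one_mul,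
        ← sum_mul_c]
      congr 1
      refine List.map_congr_left fun l _ => ?_
      simp only [Function.comp]
      rw [sgB_xor]; ring
    | false =>
      have e2 : r ≠ p.2.1 := fun h => by rw [h] at e1; simp at e1
      rw [cond_false]
      cases e3 : Nat.beq (cw r) (cw p.2.1) with
      | true =>
        rw [cond_true, h2 r List.mem_cons_self p.2.1 m1 e2 (Nat.eq_of_beq_eq_true e3)]
        simp
      | false =>
        rw [cond_false, List.map_map, ← ih', ← mul_assoc, ← sum_mul_c]
        congr 1
        refine List.map_congr_left fun l _ => ?_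
        simp only [Function.comp, List.map_cons, List.prod_cons]
        rw [sgB_xor]; ring

/-- pairs of leaves have different colours. -/
theorem lvs_pairs (cw : ℕ → ℕ) : ∀ (rs ts : List ℕ) (l : Bool × List (ℕ × ℕ)),
    l ∈ lvs cw rs ts → l.2.length ≤ rs.length ∧
      ∀ p ∈ l.2, p.1 ∈ rs ∧ p.2 ∈ ts ∧ cw p.1 ≠ cw p.2 := by
  intro rs
  induction rs with
  | nil =>
    intro ts l hl
    rw [lvs, List.mem_singleton] at hl
    subst hl
    exact ⟨le_refl _, fun p hp => by simp at hp⟩
  | cons r rs ih =>
    intro ts l hl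
    rw [lvs, List.mem_flatMap] at hl
    obtain ⟨p, hp, hl⟩ := hl
    obtain ⟨m1, m2⟩ := picks_mem hp
    cases e1 : Nat.beq r p.2.1 with
    | true =>
      rw [e1, cond_true, List.mem_map] at hl
      obtain ⟨l', hl', rfl⟩ := hl
      obtain ⟨h1, h2⟩ := ih _ _ hl'
      refine ⟨by rw [List.length_cons]; exact Nat.le_succ_of_le h1, fun q hq => ?_⟩
      obtain ⟨a1, a2, a3⟩ := h2 q hq
      exact ⟨List.mem_cons_of_mem _ a1, m2 _ a2, a3⟩
    | false =>
      rw [e1, cond_false] at hl
      cases e3 : Nat.beq (cw r) (cw p.2.1) with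
      | true => rw [e3, cond_true] at hl; simp at hl
      | false =>
        rw [e3, cond_false, List.mem_map] at hl
        obtain ⟨l', hl', rfl⟩ := hl
        obtain ⟨h1, h2⟩ := ih _ _ hl'
        refine ⟨by simpa using h1, fun q hq => ?_⟩
        rw [List.mem_cons] at hq
        rcases hq with rfl | hq
        · exact ⟨List.mem_cons_self, m1, fun h => by
            simp only at h
            rw [h] at e3; simp at e3⟩
        · obtain ⟨a1, a2, a3⟩ := h2 q hq
          exact ⟨List.mem_cons_of_mem _ a1, m2 _ a2, a3⟩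

end Vale.Agent.P355.H693
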