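import Vale.Agent.P355.H693.GDet

/-! Determinant rows for averages of coloured graphs, and their kernel check. -/

namespace Vale.Agent.P355.H693

open Finset Matrix Vale.Agent.P355 H147
open Vale.Agent.P355.H129 (force force_eq)

set_option linter.unusedSectionVars false
set_option linter.unusedSimpArgs false

variable {m N c : ℕ} {B : Fin m → M6} {lab : Fin N → Bool}

/-- one unit of flow is added, slots as natural numbers. -/
def addN (f : Fin N → Fin N → ℤ) (w y : ℕ) : Fin N → Fin N → ℤ := fun a b =>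
  f a b + if (a : ℕ) = w ∧ (b : ℕ) = y then 1 else 0

/-- several units. -/
def addNs (f : Fin N → Fin N → ℤ) : List (ℕ × ℕ) → Fin N → Fin N → ℤ
  | [] => f
  | p :: E => addN (addNs f E) p.1 p.2

/-- the vector on a slot given by a natural number. -/
def ptN (e : Fin c → Fin m) (col : Fin N → Option (Fin c)) (v : Fin N → Fin 6) (p : ℕ) :
    Option (Fin m × Fin 6) := if h : p < N then pt e col v ⟨p, h⟩ else none

theorem addN_eq (f : Fin N → Fin N → ℤ) (w y : Fin N) : addN f (w : ℕ) y = addE f w y := by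
  funext a b
  unfold addN addE
  simp only [Fin.ext_iff]

/-- good pairs. -/
def GPr (col : Fin N → Option (Fin c)) (p : ℕ × ℕ) : Prop :=
  ∃ (h1 : p.1 < N) (h2 : p.2 < N), col ⟨p.1, h1⟩ ≠ none ∧ col ⟨p.2, h2⟩ ≠ none ∧
    col ⟨p.1, h1⟩ ≠ col ⟨p.2, h2⟩

theorem mon_addNs (hB : IsMUBs B) (e : Fin c ↪ Fin m) (col : Fin N → Option (Fin c))
    (f : Fin N → Fin N → ℤ) (v : Fin N → Fin 6) : ∀ E : List (ℕ × ℕ), (∀ p ∈ E, GPr col p) →
    mon B e col (addNs f E) v = mon B e col f v
      * (r6 ^ E.length * (E.map fun p => ipo B (ptN e col v p.1) (ptN e col v p.2)).prod) := by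
  intro E
  induction E with
  | nil => intro _; simp [addNs]
  | cons p E ih =>
    intro h
    obtain ⟨h1, h2, n1, n2, n3⟩ := h p List.mem_cons_self
    obtain ⟨c0, h0⟩ := Option.ne_none_iff_exists'.1 n1
    obtain ⟨c1, h1'⟩ := Option.ne_none_iff_exists'.1 n2
    have e1 : addNs f (p :: E) = addE (addNs f E) ⟨p.1, h1⟩ ⟨p.2, h2⟩ := by
      rw [addNs, ← addN_eq]
    have h2' : pt e col v ⟨p.1, h1⟩ = some (e c0, v ⟨p.1, h1⟩) := by unfold pt; rw [h0]; rfl
    have h3' : pt e col v ⟨p.2, h2⟩ = some (e c1, v ⟨p.2, h2⟩) := by unfold pt; rw [h1']; rfl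
    have h4 : e c0 ≠ e c1 := fun h => n3 (by rw [h0, h1', e.injective h])
    rw [e1, mon_addE hB, ih fun q hq => h q (List.mem_cons_of_mem _ hq), List.map_cons,
      List.prod_cons, List.length_cons]
    have e2 : ptN e col v p.1 = some (e c0, v ⟨p.1, h1⟩) := by unfold ptN; rw [dif_pos h1, h2']
    have e3 : ptN e col v p.2 = some (e c1, v ⟨p.2, h2⟩) := by unfold ptN; rw [dif_pos h2, h3']
    rw [e2, e3, h2', h3', ho_some, ipo_some]
    unfold hh
    rw [if_neg h4]
    ring

theorem av_lsum {α : Type} (l : List α) (F : α → (Fin c ↪ Fin m) → (Fin N → Fin 6) → ℂ) :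
    av m N c (fun e v => (l.map fun x => F x e v).sum) = (l.map fun x => av m N c (F x)).sum := by
  induction l with
  | nil => simp only [List.map_nil, List.sum_nil]; unfold av; simp
  | cons x l ih =>
    simp only [List.map_cons, List.sum_cons]
    rw [av_add, ih]

/-- **Determinant row.** -/
theorem det_gv (hB : IsMUBs B) (col : Fin N → Option (Fin c)) (f : Fin N → Fin N → ℤ)
    (cw : ℕ → ℕ) (rs ts : List ℕ) (hr : rs.length = 7) (ht : ts.length = 7)
    (hrs : ∀ p ∈ rs, ∃ h : p < N, col ⟨p, h⟩ ≠ none ∧ lab ⟨p, h⟩ = true)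
    (hts : ∀ p ∈ ts, ∃ h : p < N, col ⟨p, h⟩ ≠ none ∧ lab ⟨p, h⟩ = true)
    (hcw : ∀ p q (hp : p < N) (hq : q < N), p ∈ rs → q ∈ ts →
      (cw p = cw q ↔ col ⟨p, hp⟩ = col ⟨q, hq⟩)) :
    ((lvs cw rs ts).map fun l =>
      sgB l.1 * (r6 ^ (8 - l.2.length) * gv B col lab (addNs f l.2))).sum = 0 := by
  have e1 : ((lvs cw rs ts).map fun l =>
      sgB l.1 * (r6 ^ (8 - l.2.length) * gv B col lab (addNs f l.2))).sum
      = av m N c (fun e v => ((lvs cw rs ts).map fun l =>
        sgB l.1 * r6 ^ (8 - l.2.length) * fg B e col lab (addNs f l.2) v).sum) := by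
    rw [av_lsum]
    congr 1
    refine List.map_congr_left fun l _ => ?_
    unfold gv
    rw [← mul_assoc, ← av_mul]
  rw [e1]
  have e2 : ∀ (e : Fin c ↪ Fin m) (v : Fin N → Fin 6), ((lvs cw rs ts).map fun l =>
        sgB l.1 * r6 ^ (8 - l.2.length) * fg B e col lab (addNs f l.2) v).sum = 0 := by
    intro e v
    by_cases hi : inj col lab v
    swap
    · have : ∀ l ∈ lvs cw rs ts, sgB l.1 * r6 ^ (8 - l.2.length)
          * fg B e col lab (addNs f l.2) v = 0 := by
        intro l _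
        unfold fg
        rw [if_neg hi, mul_zero]
      rw [List.map_congr_left this]
      simp
    set f' : ℕ → ℕ → ℂ := fun p q => ipo B (ptN e col v p) (ptN e col v q) with hf'
    have hpt : ∀ p, (∃ h : p < N, col ⟨p, h⟩ ≠ none ∧ lab ⟨p, h⟩ = true) →
        ∃ c0 : Fin c, ∃ h : p < N, col ⟨p, h⟩ = some c0 ∧
          ptN e col v p = some (e c0, v ⟨p, h⟩) := by
      rintro p ⟨h, h1, _⟩
      obtain ⟨c0, h0⟩ := Option.ne_none_iff_exists'.1 h1
      refine ⟨c0, h, h0, ?_⟩
      unfold ptN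
      rw [dif_pos h]
      unfold pt
      rw [h0]
      rfl
    have key : ((lvs cw rs ts).map fun l =>
        sgB l.1 * r6 ^ (8 - l.2.length) * fg B e col lab (addNs f l.2) v).sum
        = r6 ^ 8 * mon B e col f v * dL f' rs ts := by
      rw [← lvs_sum f' cw rs ts, ← sum_mul_c]
      · congr 1
        refine List.map_congr_left fun l hl => ?_
        obtain ⟨k1, k2⟩ := lvs_pairs cw rs ts l hl
        unfold fg
        rw [if_pos hi, mon_addNs hB e col f v l.2 fun p hp => ?_]
        · have h8 : r6 ^ 8 = r6 ^ (8 - l.2.length) * r6 ^ l.2.length := by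
            rw [← pow_add]; congr 1; omega
          rw [h8]; ring
        · obtain ⟨a1, a2, a3⟩ := k2 p hp
          obtain ⟨h1, n1, _⟩ := hrs p.1 a1
          obtain ⟨h2, n2, _⟩ := hts p.2 a2
          exact ⟨h1, h2, n1, n2, fun h => a3 ((hcw _ _ h1 h2 a1 a2).2 h)⟩
      · intro r hr' t ht' hrt
        obtain ⟨c0, h0, h1, h2⟩ := hpt r (hrs r hr')
        rw [hf']
        simp only
        rw [← hrt, h2, ipo_some, ipr_self hB _ _ rfl, if_pos rfl]
      · intro r hr' t ht' hrt hc
        obtain ⟨c0, h0, h1, h2⟩ := hpt r (hrs r hr')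
        obtain ⟨c1, h3, h4, h5⟩ := hpt t (hts t ht')
        have h6 : col ⟨r, h0⟩ = col ⟨t, h3⟩ := (hcw _ _ h0 h3 hr' ht').1 hc
        have h7 : c0 = c1 := by rw [h1, h4] at h6; exact Option.some.inj h6
        subst h7
        rw [hf']
        simp only
        rw [h2, h5, ipo_some, ipr_self hB (e c0, v ⟨r, h0⟩) (e c0, v ⟨t, h3⟩) rfl, if_neg]
        obtain ⟨_, _, l1⟩ := hrs r hr'
        obtain ⟨_, _, l2⟩ := hts t ht'
        exact hi ⟨r, h0⟩ ⟨t, h3⟩ (fun h => hrt (Fin.ext_iff.1 h)) l1 l2 (by rw [h1]; simp) h6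
    rw [key, dL_det f' 7 rs ts hr ht]
    have hx : ∀ i : Fin 7, ∃ z, ptN e col v (rs.getD i 0) = some z := by
      intro i
      have hm : rs.getD i 0 ∈ rs := by
        rw [List.getD_eq_getElem _ _ (by rw [hr]; exact i.2)]
        exact List.getElem_mem _
      obtain ⟨c0, h0, _, h2⟩ := hpt _ (hrs _ hm)
      exact ⟨_, h2⟩
    have hy : ∀ i : Fin 7, ∃ z, ptN e col v (ts.getD i 0) = some z := by
      intro i
      have hm : ts.getD i 0 ∈ ts := by
        rw [List.getD_eq_getElem _ _ (by rw [ht]; exact i.2)]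
        exact List.getElem_mem _
      obtain ⟨c0, h0, _, h2⟩ := hpt _ (hts _ hm)
      exact ⟨_, h2⟩
    choose x hx using hx
    choose y hy using hy
    have e3 : (Matrix.of fun i j : Fin 7 => f' (rs.getD i 0) (ts.getD j 0))
        = Matrix.of fun i j : Fin 7 => ipr B (x i) (y j) := by
      ext i j
      simp only [Matrix.of_apply, hf']
      rw [hx i, hy j, ipo_some]
    rw [e3, det7, mul_zero]
  rw [av_congr (G := fun _ _ => 0) e2]
  unfold av
  simp

/-! ### Keys -/

/-- shifted net flows after adding units of flow. -/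
def gE (K : ℕ) (E : List (ℕ × ℕ)) (p q : ℕ) : ℕ :=
  List.rec (motive := fun _ => ℕ) (Nat.add (dgn K p q) 64)
    (fun w _ ih => Nat.sub (Nat.add ih (cond (and (Nat.beq p w.1) (Nat.beq q w.2)) 1 0))
      (cond (and (Nat.beq p w.2) (Nat.beq q w.1)) 1 0)) E

theorem cond_beqN (p q a b : ℕ) : (cond (and (Nat.beq p a) (Nat.beq q b)) 1 0 : ℕ)
    = if p = a ∧ q = b then 1 else 0 := by
  by_cases h1 : p = a
  · by_cases h2 : q = b
    · subst h1; subst h2; simp
    · have e2 : Nat.beq q b = false := by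
        cases h3 : Nat.beq q b with
        | false => rfl
        | true => exact absurd (Nat.eq_of_beq_eq_true h3) h2
      simp [h2, e2]
  · have e1 : Nat.beq p a = false := by
      cases h3 : Nat.beq p a with
      | false => rfl
      | true => exact absurd (Nat.eq_of_beq_eq_true h3) h1
    simp [h1, e1]

theorem gE_cons (K : ℕ) (w : ℕ × ℕ) (E : List (ℕ × ℕ)) (p q : ℕ) :
    gE K (w :: E) p q = gE K E p q + (if p = w.1 ∧ q = w.2 then 1 else 0)
      - (if p = w.2 ∧ q = w.1 then 1 else 0) := by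
  rw [← cond_beqN, ← cond_beqN]
  rfl

theorem gE_ge (K : ℕ) (E : List (ℕ × ℕ)) (p q : ℕ) : 64 ≤ gE K E p q + E.length := by
  induction E with
  | nil =>
    show 64 ≤ dgn K p q + 64 + 0
    omega
  | cons w E ih =>
    rw [gE_cons, List.length_cons]
    split_ifs <;> omega

theorem net_addN (f : Fin N → Fin N → ℤ) (w y : ℕ) (p q : Fin N) :
    net (addN f w y) p q = net f p q + (if (p : ℕ) = w ∧ (q : ℕ) = y then 1 else 0)
      - (if (p : ℕ) = y ∧ (q : ℕ) = w then 1 else 0) := by
  unfold net addN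
  have h1 : ((q : ℕ) = w ∧ (p : ℕ) = y) ↔ ((p : ℕ) = y ∧ (q : ℕ) = w) := and_comm
  rw [if_congr h1 rfl rfl]
  ring

theorem gE_spec (K : ℕ) (p q : Fin N) (hpq : p ≠ q) : ∀ E : List (ℕ × ℕ), E.length ≤ 32 →
    net (addNs (flK N K) E) p q = (gE K E p q : ℤ) - 96 := by
  intro E
  induction E with
  | nil =>
    intro _
    show net (flK N K) p q = ((dgn K p q + 64 : ℕ) : ℤ) - 96
    rw [net_flK K p q hpq]
    push_cast; ring
  | cons w E ih =>
    intro h
    rw [List.length_cons] at h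
    have ih' := ih (by omega)
    have hg := gE_ge K E p q
    rw [addNs, net_addN, ih', gE_cons]
    split_ifs <;> omega

/-- number of pairs. -/
def lenP (E : List (ℕ × ℕ)) : ℕ := List.rec (motive := fun _ => ℕ) 0 (fun _ _ ih => Nat.succ ih) E

theorem lenP_eq (E : List (ℕ × ℕ)) : lenP E = E.length := by
  induction E with
  | nil => rfl
  | cons a l ih =>
    have : lenP (a :: l) = lenP l + 1 := rfl
    rw [this, ih, List.length_cons]

/-- check of the leaves against the terms. -/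
def lfCk (N c : ℕ) (tab : ℕ → ℕ) (K : ℕ) (w : ℕ → ℕ) :
    List (Bool × List (ℕ × ℕ)) → List ℕ → Bool
  | [], [] => true
  | l :: ls, T :: Ts => and
      (tck N c tab (Nat.mod (Nat.add K (lenP l.2)) 2) w (gE K l.2) T) (lfCk N c tab K w ls Ts)
  | _, _ => false

/-- coefficient of a leaf. -/
def lfC (K k : ℕ) : ℕ :=
  Nat.pow 6 (Nat.div (Nat.sub 8 (Nat.add (Nat.add (Nat.mod K 2) k) (Nat.mod (Nat.add K k) 2))) 2)

/-- coefficients and terms. -/
def lfOut (K : ℕ) (lam : ℤ) : List (Bool × List (ℕ × ℕ)) → List ℕ → List (ℤ × ℕ)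
  | l :: ls, T :: Ts => (Int.mul lam (cond l.1 (Int.neg (Int.ofNat (lfC K (lenP l.2))))
      (Int.ofNat (lfC K (lenP l.2)))), T) :: lfOut K lam ls Ts
  | _, _ => []

theorem sqrt6_pow_coef (K k : ℕ) (hk : k ≤ 7) :
    Real.sqrt 6 ^ (8 - k) = Real.sqrt 6 ^ (K % 2) * (lfC K k * pwp ((K + k) % 2)) := by
  have h6 : Real.sqrt 6 ^ 2 = 6 := Real.sq_sqrt (by norm_num)
  have hp : pwp ((K + k) % 2) = Real.sqrt 6 ^ ((K + k) % 2) := by
    unfold pwp
    rcases Nat.mod_two_eq_zero_or_one (K + k) with h | h <;> rw [h] <;> simp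
  have hc : (lfC K k : ℝ) = Real.sqrt 6 ^ (8 - (K % 2 + k + (K + k) % 2)) := by
    have e : (lfC K k : ℝ) = 6 ^ ((8 - (K % 2 + k + (K + k) % 2)) / 2) := by
      have : lfC K k = 6 ^ ((8 - (K % 2 + k + (K + k) % 2)) / 2) := rfl
      rw [this]; push_cast; rfl
    rw [e]
    have h2 : 8 - (K % 2 + k + (K + k) % 2)
        = 2 * ((8 - (K % 2 + k + (K + k) % 2)) / 2) := by omega
    conv_rhs => rw [h2]
    rw [pow_mul, h6]
  rw [hp, hc, ← pow_add, ← pow_add]
  congr 1
  omega

theorem r6_pow_re (j : ℕ) (z : ℂ) : (r6 ^ j * z).re = Real.sqrt 6 ^ j * z.re := by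
  unfold r6
  rw [← Complex.ofReal_pow, Complex.re_ofReal_mul]

theorem sgB_re (s : Bool) (z : ℂ) : (sgB s * z).re = (if s = true then -1 else 1) * z.re := by
  cases s <;> simp [sgB]

theorem re_lsum {α : Type} (l : List α) (F : α → ℂ) :
    ((l.map F).sum).re = (l.map fun x => (F x).re).sum := by
  induction l with
  | nil => simp
  | cons x l ih => simp only [List.map_cons, List.sum_cons, Complex.add_re, ih]

theorem lf_sum (hB : IsMUBs B) {ct : GT} {K : ℕ} (lam : ℤ) :
    ∀ (ls : List (Bool × List (ℕ × ℕ))) (Ts : List ℕ), (∀ l ∈ ls, l.2.length ≤ 7) →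
    lfCk N c (tabG ct) K (wdN (upK N K)) ls Ts = true →
    Real.sqrt 6 ^ (K % 2) * valT (cv B N c) ct (lfOut K lam ls Ts)
      = lam * (ls.map fun l => (if l.1 = true then -1 else 1) * (Real.sqrt 6 ^ (8 - l.2.length)
          * (gv B (colK N c K) (labK N K) (addNs (flK N K) l.2)).re)).sum := by
  intro ls
  induction ls with
  | nil =>
    intro Ts _ h
    cases Ts with
    | nil => simp [lfOut, valT]
    | cons T Ts => simp [lfCk] at h
  | cons l ls ih =>
    intro Ts hl h
    cases Ts with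
    | nil => simp [lfCk] at h
    | cons T Ts =>
      rw [lfCk, Bool.and_eq_true] at h
      obtain ⟨h1, h2⟩ := h
      have ih' := ih Ts (fun x hx => hl x (List.mem_cons_of_mem _ hx)) h2
      have hl7 := hl l List.mem_cons_self
      have hT := tck_spec hB (colK N c K) (labK N K) (addNs (flK N K) l.2) h1
        (fun p => by rw [wdN_eq]; rfl) (fun p _ => by rw [wdN_eq]; rfl)
        (fun p q hpq _ _ => gE_spec K p q hpq.ne l.2 (by omega))
      rw [lfOut, valT_cons, mul_add, ih', List.map_cons, List.sum_cons, hT]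
      have hk : Nat.mod (Nat.add K (lenP l.2)) 2 = (K + l.2.length) % 2 := by
        rw [lenP_eq]; rfl
      have hc := sqrt6_pow_coef K l.2.length hl7
      have e1 : ((Int.mul lam (cond l.1 (Int.neg (Int.ofNat (lfC K (lenP l.2))))
          (Int.ofNat (lfC K (lenP l.2)))) : ℤ) : ℝ)
          = lam * ((if l.1 = true then -1 else 1) * (lfC K l.2.length : ℝ)) := by
        rw [lenP_eq]
        have : Int.mul lam (cond l.1 (Int.neg (Int.ofNat (lfC K l.2.length)))
          (Int.ofNat (lfC K l.2.length))) = lam * (cond l.1 (-(lfC K l.2.length : ℤ))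
            (lfC K l.2.length : ℤ)) := rfl
        rw [this]
        cases l.1 <;> push_cast <;> simp
      rw [e1, hk, hc]
      ring

/-- a determinant row: key of the graph, row slots, column slots, multiplier, terms. -/
abbrev DRow := ℕ × List ℕ × List ℕ × ℤ × List ℕ

/-- slots of determinants: present, labelled. -/
def slOK (N c Z : ℕ) (l : List ℕ) : Bool :=
  and (Nat.beq (lenL l) 7) (l.all fun p => and (Nat.blt p N)
    (and (okW c (wdN Z p)) (Nat.beq (Nat.mod (wdN Z p) 2) 1)))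

/-- colour of a slot. -/
def cwZ (Z p : ℕ) : ℕ := Nat.div (wdN Z p) 2

/-- check of a determinant row. -/
noncomputable def drCk (N c : ℕ) (ct : GT) (r : DRow) : Bool :=
  force (upK N r.1) fun Z => and (and (slOK N c Z r.2.1) (slOK N c Z r.2.2.1))
    (lfCk N c (tabG ct) r.1 (wdN Z) (lvs (cwZ Z) r.2.1 r.2.2.1) r.2.2.2.2)

/-- its terms. -/
def drOut (N : ℕ) (r : DRow) : List (ℤ × ℕ) :=
  force (upK N r.1) fun Z => lfOut r.1 r.2.2.2.1 (lvs (cwZ Z) r.2.1 r.2.2.1) r.2.2.2.2

theorem drCk_spec (hB : IsMUBs B) {ct : GT} {r : DRow} (h : drCk N c ct r = true) :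
    valT (cv B N c) ct (drOut N r) = 0 := by
  obtain ⟨K, rs, ts, lam, Ts⟩ := r
  unfold drCk at h
  unfold drOut
  simp only [force_eq, Bool.and_eq_true] at h ⊢
  obtain ⟨⟨h1, h2⟩, h3⟩ := h
  have hs : ∀ l : List ℕ, slOK N c (upK N K) l = true → l.length = 7 ∧
      ∀ p ∈ l, ∃ hp : p < N, okW c (wd N K p) = true ∧ wd N K p % 2 = 1 := by
    intro l hl
    unfold slOK at hl
    rw [Bool.and_eq_true, lenL_eq] at hl
    refine ⟨Nat.eq_of_beq_eq_true hl.1, fun p hp => ?_⟩
    have h4 := (List.all_eq_true.1 hl.2) p hp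
    rw [Bool.and_eq_true, Bool.and_eq_true, wdN_eq] at h4
    exact ⟨by simpa [Nat.blt_eq] using h4.1, h4.2.1, Nat.eq_of_beq_eq_true h4.2.2⟩
  obtain ⟨r7, hr⟩ := hs rs h1
  obtain ⟨t7, ht⟩ := hs ts h2
  have hcol : ∀ p (hp : p < N), okW c (wd N K p) = true → wd N K p % 2 = 1 →
      colK N c K ⟨p, hp⟩ ≠ none ∧ labK N K ⟨p, hp⟩ = true := by
    intro p hp h4 h5
    refine ⟨okW_ne h4, ?_⟩
    unfold labK
    rw [h5]; rfl
  have hdet := det_gv (lab := labK N K) hB (colK N c K) (flK N K) (cwZ (upK N K)) rs ts r7 t7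
    (fun p hp => by
      obtain ⟨a, b, d⟩ := hr p hp
      exact ⟨a, hcol p a b d⟩)
    (fun p hp => by
      obtain ⟨a, b, d⟩ := ht p hp
      exact ⟨a, hcol p a b d⟩)
    (fun p q hp hq mp mq => by
      obtain ⟨_, b1, _⟩ := hr p mp
      obtain ⟨_, b2, _⟩ := ht q mq
      have e : cwZ (upK N K) p = wd N K p / 2 := by unfold cwZ; rw [wdN_eq]; rfl
      have e' : cwZ (upK N K) q = wd N K q / 2 := by unfold cwZ; rw [wdN_eq]; rfl
      rw [e, e']
      constructor
      · intro h; exact w2c_congr h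
      · intro h
        by_contra h'
        exact w2c_ne b1 b2 h' h)
  have h6 := congrArg Complex.re hdet
  rw [re_lsum, Complex.zero_re] at h6
  simp only [sgB_re, r6_pow_re] at h6
  have h7 := lf_sum hB (B := B) (ct := ct) (K := K) lam (lvs (cwZ (upK N K)) rs ts) Ts
    (fun l hl => by rw [← r7]; exact (lvs_pairs _ _ _ l hl).1) h3
  rw [h6, mul_zero] at h7
  exact (mul_eq_zero.1 h7).resolve_left (by positivity)

/-- all terms of a list of determinant rows. -/
def drOuts (N : ℕ) (L : List DRow) : List (ℤ × ℕ) := L.flatMap (drOut N)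

theorem drOuts_zero (hB : IsMUBs B) {ct : GT} : ∀ {L : List DRow},
    (L.all fun r => drCk N c ct r) = true → valT (cv B N c) ct (drOuts N L) = 0
  | [], _ => by simp [drOuts, valT]
  | r :: L, h => by
    rw [List.all_cons, Bool.and_eq_true] at h
    have e : drOuts N (r :: L) = drOut N r ++ drOuts N L := by
      unfold drOuts; rw [List.flatMap_cons]
    rw [e, valT_append, drCk_spec hB h.1, drOuts_zero hB h.2, add_zero]

/-- **module of determinant rows**: the sparse list `out` is their sum. -/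
noncomputable def ckDet (N c : ℕ) (ct : GT) (L : List DRow) (out : List (ℕ × ℕ)) : Bool :=
  and (L.all fun r => drCk N c ct r) (ckFinG ct (drOuts N L) out)

theorem ckDet_sound (hB : IsMUBs B) {ct : GT} {L : List DRow} {out : List (ℕ × ℕ)}
    (h : ckDet N c ct L out = true) : evL (cv B N c) ct out = 0 := by
  unfold ckDet at h
  rw [Bool.and_eq_true] at h
  rw [← ckFinG_sound (g := cv B N c) h.2, drOuts_zero hB h.1]

end Vale.Agent.P355.H693
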