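import Vale.Agent.P355.H693.GFin
import Vale.Agent.P355.H147.Key

/-! Final bookkeeping with a small residual: the coefficients need to cancel only up to a list whose
total mass is small compared with the constant. -/

namespace Vale.Agent.P355.H693

open Finset Matrix Vale.Agent.P355

variable {m N c : ℕ}

/-- mass of a list of terms. -/
def massT (l : List (ℤ × ℕ)) : ℕ := (l.map fun p => p.1.natAbs).sum

theorem abs_valT_le {B : Fin m → M6} (hB : IsMUBs B) (ct : GT) (l : List (ℤ × ℕ)) :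
    |valT (H147.cv B N c) ct l| ≤ 5 / 2 * massT l := by
  induction l with
  | nil => simp [valT, massT]
  | cons p l ih =>
    rw [valT_cons]
    have h1 := H147.abs_cv_le hB N c (tabG ct (tId p.2))
    have h2 : |(p.1 : ℝ) * H147.cv B N c (tabG ct (tId p.2))| ≤ 5 / 2 * (p.1.natAbs : ℝ) := by
      rw [abs_mul]
      have h3 : |(p.1 : ℝ)| = (p.1.natAbs : ℝ) := by
        rw [← Int.cast_abs, Int.abs_eq_natAbs]; rfl
      rw [h3, mul_comm]
      exact mul_le_mul_of_nonneg_right h1 (Nat.cast_nonneg _)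
    have h4 : massT (p :: l) = p.1.natAbs + massT l := by simp [massT]
    rw [h4]
    refine (abs_add_le _ _).trans ?_
    push_cast
    push_cast at h2 ih
    linarith

/-- **No `m` bases, with a residual.** -/
theorem no_mubs_res {B : Fin m → M6} (hB : IsMUBs B) (hcm : c ≤ m) {ct : GT}
    {l res : List (ℤ × ℕ)} {out : List (ℕ × ℕ)} {T0 de : ℕ}
    (h0 : tck N c (tabG ct) 0 (fun _ => 0) (fun _ _ => 96) T0 = true)
    (hl : 0 ≤ valT (H147.cv B N c) ct l) (ho : evL (H147.cv B N c) ct out = 0)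
    (hres : 5 * massT res < 2 * de)
    (hck : ckFinG ct (l ++ (res ++ [((de : ℤ), T0)])) out = true) : False := by
  have h1 := ckFinG_sound (g := H147.cv B N c) hck
  rw [ho, valT_append, valT_append, valT_cons] at h1
  have h2 : valT (H147.cv B N c) ct [] = 0 := rfl
  rw [h2] at h1
  have h3 : H147.cv B N c (tabG ct (tId T0)) = 1 := empty_key hB hcm h0
  rw [h3] at h1
  have h4 := abs_valT_le (N := N) (c := c) hB ct res
  have h5 : (5 : ℝ) * massT res < 2 * de := by exact_mod_cast hres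
  have h6 := (abs_le.1 h4).1
  push_cast at h1
  linarith

/-- **No five bases**: a list of inequalities, `t2 ≥ 0`, rows `out`, residual `res`. -/
theorem no_five_res {N c : ℕ} {ct : GT} {lA res : List (ℤ × ℕ)} {out : List (ℕ × ℕ)}
    {T0 TT de al : ℕ} (hc : 3 ≤ c) (hcm : c ≤ 5) (hN : 3 ≤ N)
    (hA : ∀ B : Fin 5 → M6, IsMUBs B → 0 ≤ valT (H147.cv B N c) ct lA)
    (hT : tck N c (tabG ct) 0 wTri gTri TT = true)
    (h0 : tck N c (tabG ct) 0 (fun _ => 0) (fun _ _ => 96) T0 = true)
    (ho : ∀ B : Fin 5 → M6, IsMUBs B → evL (H147.cv B N c) ct out = 0)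
    (hres : 5 * massT res < 2 * de)
    (hck : ckFinG ct ((lA ++ [((al : ℤ), TT)]) ++ (res ++ [((de : ℤ), T0)])) out = true)
    (B : Fin 5 → M6) : ¬ IsMUBs B := by
  intro hB
  refine no_mubs_res hB hcm h0 ?_ (ho B hB) hres hck
  rw [valT_append]
  have h1 := hA B hB
  have h2 := tri_T hB hc hcm hN hT (al := al)
  linarith

/-- **No four bases**: a list of inequalities, rows `out`, residual `res`. -/
theorem no_four_res {N c : ℕ} {ct : GT} {lA res : List (ℤ × ℕ)} {out : List (ℕ × ℕ)}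
    {T0 de : ℕ} (hcm : c ≤ 4)
    (hA : ∀ B : Fin 4 → M6, IsMUBs B → 0 ≤ valT (H147.cv B N c) ct lA)
    (h0 : tck N c (tabG ct) 0 (fun _ => 0) (fun _ _ => 96) T0 = true)
    (ho : ∀ B : Fin 4 → M6, IsMUBs B → evL (H147.cv B N c) ct out = 0)
    (hres : 5 * massT res < 2 * de)
    (hck : ckFinG ct (lA ++ (res ++ [((de : ℤ), T0)])) out = true)
    (B : Fin 4 → M6) : ¬ IsMUBs B := fun hB =>
  no_mubs_res hB hcm h0 (hA B hB) (ho B hB) hres hck

end Vale.Agent.P355.H693
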