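import Vale.Agent.P355.H693.GRow

/-! Soundness of the checked rows. -/

namespace Vale.Agent.P355.H693

open Finset Matrix Vale.Agent.P355 H147
open Vale.Agent.P355.H129 (force force_eq)

variable {m N c : ℕ} {B : Fin m → M6}

/-- field of a header: four bits. -/
def hf (h i : ℕ) : ℕ := Nat.mod (Nat.shiftRight h (Nat.add 20 (Nat.mul 4 i))) 16

/-- words after freeing `x`. -/
def wF (Z x p : ℕ) : ℕ :=
  cond (Nat.beq p x) (Nat.mul 2 (Nat.div (wdN Z p) 2)) (wdN Z p)

/-- the body of the check of a row, by kind. -/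
def rkB (N c : ℕ) (tab : ℕ → ℕ) (K Z b x w y wx mc T : ℕ) (pts : List ℕ) (kind : ℕ) : Bool :=
  cond (Nat.beq kind 6)
    (and (Nat.ble 6 (cntP (isPr Z x wx) N)) (and (Nat.beq mc 0)
      (List.rec (motive := fun _ => Bool) true (fun _ _ _ => false) pts)))
  (cond (Nat.beq kind 0)
    (and (lvC N K x x x) (and (Nat.beq (Nat.add mc (cntP (isPr Z x wx) N)) 6)
      (and (tck N c tab b (wE Z x x) (g0 K) T)
        (List.rec (motive := fun _ => Bool) true (fun _ _ _ => false) pts))))
  (and (cond (Nat.beq kind 1)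
    (and (l1C N c K Z x w y wx) (and (not (Nat.beq (Nat.div (wdN Z w) 2) (Nat.div (wdN Z y) 2)))
      (and (Nat.beq mc (cond (Nat.beq b 0) 1 6))
        (tck N c tab (Nat.sub 1 b) (wE Z x x) (gAdd K w y) T))))
  (cond (Nat.beq kind 2)
    (and (l1C N c K Z x w y wx) (and (Nat.beq (Nat.div (wdN Z w) 2) (Nat.div (wdN Z y) 2))
      (and (Nat.beq mc 0) (and (Nat.beq (Nat.mod (wdN Z w) 2) 1)
        (Nat.beq (Nat.mod (wdN Z y) 2) 1)))))
  (cond (Nat.beq kind 3)
    (and (l1C N c K Z x w y wx) (and (Nat.beq (Nat.div (wdN Z w) 2) (Nat.div (wdN Z y) 2))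
      (and (Nat.beq mc 1) (and (Nat.beq (Nat.mod (wdN Z w) 2) 0)
        (tck N c tab b (wE Z x w) (gM K w y) T)))))
  (cond (Nat.beq kind 4)
    (and (l1C N c K Z x w y wx) (and (Nat.beq (Nat.div (wdN Z w) 2) (Nat.div (wdN Z y) 2))
      (and (Nat.beq mc 1) (and (Nat.beq (Nat.mod (wdN Z y) 2) 0)
        (tck N c tab b (wE Z x y) (gM K y w) T)))))
    (and (Nat.beq kind 5) (and (Nat.beq mc 6) (tck N c tab b (wF Z x) (g0 K) T)))))))
    (pLp (isPr Z x wx) (fun p t => tck N c tab b (wE Z x x) (gM K x p) t) N pts)))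

/-- more than six distinct vertices of one basis. -/
theorem gv_zero (col : Fin N → Option (Fin c)) (lab : Fin N → Bool) (f : Fin N → Fin N → ℤ)
    (x : Fin N) (hx : col x ≠ none) (lx : lab x = true) (h : 6 ≤ (peers col lab x).card) :
    gv B col lab f = 0 := by
  unfold gv
  rw [av_congr (G := fun _ _ => 0)]
  · unfold av; simp
  · intro e v
    unfold fg
    rw [if_neg]
    intro hi
    have hxn : x ∉ peers col lab x := by unfold peers; simp
    have hcard : (univ : Finset (Fin 6)).card < (insert x (peers col lab x)).card := by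
      rw [Finset.card_insert_of_notMem hxn, Finset.card_univ, Fintype.card_fin]; omega
    obtain ⟨p, hp, q, hq, hpq, hv⟩ := Finset.exists_ne_map_eq_of_card_lt_of_maps_to hcard
      (f := v) (fun _ _ => Finset.mem_univ _)
    have key : ∀ r ∈ insert x (peers col lab x), lab r = true ∧ col r = col x := by
      intro r hr
      rw [Finset.mem_insert] at hr
      rcases hr with rfl | hr
      · exact ⟨lx, rfl⟩
      · unfold peers at hr
        rw [mem_filter] at hr
        exact ⟨hr.2.2.1, hr.2.2.2.2⟩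
    have h1 := key p hp
    have h2 := key q hq
    exact hi p q hpq h1.1 h2.1 (by rw [h1.2]; exact hx) (by rw [h1.2, h2.2]) hv

/-- check of a row: header `h` (class number 20 bits, then `kind, x, w, y, mc`), main term `T`,
terms of the peers. -/
def rowCk (N c : ℕ) (tab : ℕ → ℕ) (h T : ℕ) (pts : List ℕ) : Bool :=
  force (tab (tId h)) fun K => force (upK N K) fun Z => force (Nat.mod K 2) fun b =>
    force (hf h 1) fun x => force (hf h 2) fun w => force (hf h 3) fun y =>
      force (wdN Z x) fun wx =>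
        and (Nat.blt x N) (and (okW c wx) (rkB N c tab K Z b x w y wx (hf h 4) T pts (hf h 0)))

/-- the words of the graph after erasing give the data for `tck_spec`. -/
theorem tck_era (hB : IsMUBs B) {tab : ℕ → ℕ} {K Z par T : ℕ} (hZ : Z = upK N K) (x : Fin N)
    (f : Fin N → Fin N → ℤ) {g : ℕ → ℕ → ℕ}
    (h : tck N c tab par (wE Z x x) g T = true)
    (hnet : ∀ p q : Fin N, p ≠ q → p ≠ x → q ≠ x → net f p q = (g p q : ℤ) - 96) :
    cv B N c (tab (tId T)) = pwp par * (gv B (era (colK N c K) x) (labK N K) f).re := by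
  have hne : ∀ p, era (colK N c K) x p ≠ none → p ≠ x := by
    intro p hp h'
    subst h'
    exact hp (by unfold era; simp)
  refine tck_spec hB _ _ _ h (fun p => col_era Z K hZ x p) (fun p hp => ?_)
    (fun p q hpq hp hq => hnet p q hpq.ne (hne p hp) (hne q hq))
  rw [col_era Z K hZ x p] at hp
  unfold labK
  rw [lab_wE hZ hp]

theorem tck_era2 (hB : IsMUBs B) {tab : ℕ → ℕ} {K Z par T : ℕ} (hZ : Z = upK N K) (x x' : Fin N)
    (f : Fin N → Fin N → ℤ) {g : ℕ → ℕ → ℕ}
    (h : tck N c tab par (wE Z x x') g T = true)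
    (hnet : ∀ p q : Fin N, p ≠ q → p ≠ x' → q ≠ x' → net f p q = (g p q : ℤ) - 96) :
    cv B N c (tab (tId T))
      = pwp par * (gv B (era (era (colK N c K) x) x') (labK N K) f).re := by
  have hne : ∀ p, era (era (colK N c K) x) x' p ≠ none → p ≠ x' := by
    intro p hp h'
    subst h'
    exact hp (by unfold era; simp)
  refine tck_spec hB _ _ _ h (fun p => col_era2 Z K hZ x x' p) (fun p hp => ?_)
    (fun p q hpq hp hq => hnet p q hpq.ne (hne p hp) (hne q hq))
  rw [col_era2 Z K hZ x x' p] at hp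
  unfold labK
  rw [lab_wE hZ hp]

/-- the sum over the peers. -/
theorem pLp_peers (hB : IsMUBs B) {tab : ℕ → ℕ} {K Z b : ℕ} (hZ : Z = upK N K) (x : Fin N)
    (hx : colK N c K x ≠ none) {pts : List ℕ}
    (h : pLp (isPr Z x (wdN Z x)) (fun p t => tck N c tab b (wE Z x x) (gM K x p) t) N pts
      = true) :
    (pts.map fun t => cv B N c (tab (tId t))).sum
      = pwp b * ∑ p ∈ peers (colK N c K) (labK N K) x,
          (gv B (era (colK N c K) x) (labK N K) (mrg (flK N K) x p)).re := by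
  rw [Finset.mul_sum, sum_peers hZ hx _ (fun k => if hk : k < N then
    pwp b * (gv B (era (colK N c K) x) (labK N K) (mrg (flK N K) x ⟨k, hk⟩)).re else 0)
    (fun p => by rw [dif_pos p.2])]
  symm
  refine pLp_spec _ _ N pts (fun k hk _ t ht => ?_) h
  rw [dif_pos hk]
  exact (tck_era hB hZ x _ ht fun p q hpq hp hq =>
    gM_spec K x ⟨k, hk⟩ p q hpq hp hq).symm

theorem pwp_mul {b : ℕ} (hb : b < 2) :
    pwp b * Real.sqrt 6 = ((if b = 0 then 1 else 6 : ℕ) : ℝ) * pwp (1 - b) := by
  interval_cases b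
  · simp [pwp]
  · simp [pwp]

theorem r6_re (z : ℂ) : (r6 * z).re = Real.sqrt 6 * z.re := by
  unfold r6; rw [Complex.re_ofReal_mul]

/-- the relation of a row. -/
theorem rowCk_spec (hB : IsMUBs B) {tab : ℕ → ℕ} {h T : ℕ} {pts : List ℕ}
    (hck : rowCk N c tab h T pts = true) :
    6 * cv B N c (tab (tId h)) + (pts.map fun t => cv B N c (tab (tId t))).sum
      = (hf h 4 : ℝ) * cv B N c (tab (tId T)) := by
  unfold rowCk at hck
  simp only [force_eq] at hck
  set K := tab (tId h) with hK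
  set Z := upK N K with hZ
  have hb2 : K % 2 < 2 := Nat.mod_lt _ (by norm_num)
  have hbe : Nat.mod K 2 = K % 2 := rfl
  rw [hbe] at hck
  set b := K % 2 with hb
  set x := hf h 1 with hxdef
  set w := hf h 2
  set y := hf h 3
  set mc := hf h 4
  rw [Bool.and_eq_true, Bool.and_eq_true, Nat.blt_eq] at hck
  obtain ⟨hx, hwx, hk⟩ := hck
  have cw : ∀ p : Fin N, colK N c K p = w2c c (wdN Z p) := fun p => by
    rw [hZ, wdN_eq, colK_w2c]
  have hxne : colK N c K ⟨x, hx⟩ ≠ none := by rw [cw]; exact okW_ne hwx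
  have ecv : cv B N c K = pwp b * (gv B (colK N c K) (labK N K) (flK N K)).re := cv_pwp K
  rw [ecv]
  have re6 : ∀ z : ℂ, (6 * z).re = 6 * z.re := fun z => by
    have : (6 : ℂ) = ((6 : ℝ) : ℂ) := by norm_num
    rw [this, Complex.re_ofReal_mul]
  have labw : ∀ p : Fin N, labK N K p = (Nat.mod (wdN Z p) 2 == 1) := fun p => by
    rw [hZ, wdN_eq]; rfl
  unfold rkB at hk
  have hcnt : ((cntP (isPr Z x (wdN Z x)) N : ℕ) : ℝ)
      = ((peers (colK N c K) (labK N K) ⟨x, hx⟩).card : ℝ) := by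
    rw [cntP_spec]
    have := sum_peers (c := c) hZ hxne (fun _ => (1 : ℝ)) (fun _ => 1) (fun _ => rfl)
    rw [← this]; simp
  rcases h6 : Nat.beq (hf h 0) 6 with _ | _
  swap
  · -- kind 6
    rw [h6, cond_true, Bool.and_eq_true, Bool.and_eq_true] at hk
    obtain ⟨k1, k2, k4⟩ := hk
    have hpts : pts = [] := by
      cases pts with
      | nil => rfl
      | cons a l => exact absurd k4 (by simp)
    subst hpts
    have hmc : mc = 0 := Nat.eq_of_beq_eq_true k2
    have k1 : 6 ≤ cntP (isPr Z x (wdN Z x)) N := Nat.le_of_ble_eq_true k1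
    have hc6 : 6 ≤ (peers (colK N c K) (labK N K) ⟨x, hx⟩).card := by
      have h3 : (6 : ℝ) ≤ ((peers (colK N c K) (labK N K) ⟨x, hx⟩).card : ℝ) := by
        rw [← hcnt]; exact_mod_cast k1
      exact_mod_cast h3
    have hlx : labK N K ⟨x, hx⟩ = true := by
      obtain ⟨p, hp⟩ := Finset.card_pos.1 (show 0 < (peers (colK N c K) (labK N K) ⟨x, hx⟩).card by
        omega)
      unfold peers at hp
      rw [mem_filter] at hp
      exact hp.2.2.2.1
    have hz := gv_zero (B := B) (colK N c K) (labK N K) (flK N K) ⟨x, hx⟩ hxne hlx hc6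
    rw [hz, hmc]
    simp
  rw [h6, cond_false] at hk
  rcases h0 : Nat.beq (hf h 0) 0 with _ | _
  swap
  · -- kind 0
    rw [h0, cond_true, Bool.and_eq_true, Bool.and_eq_true, Bool.and_eq_true] at hk
    obtain ⟨k1, k2, k3, k4⟩ := hk
    have hpts : pts = [] := by
      cases pts with
      | nil => rfl
      | cons a l => exact absurd k4 (by simp)
    subst hpts
    have hl0 : Lev0 (colK N c K) (flK N K) ⟨x, hx⟩ := by
      intro q _ hq2
      have hqx : q ≠ (⟨x, hx⟩ : Fin N) := fun h' => hq2 (by rw [h'])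
      exact lvC_spec (x := ⟨x, hx⟩) (w := ⟨x, hx⟩) (y := ⟨x, hx⟩) k1 q hqx hqx
    have hr := congrArg Complex.re (rule0 hB (colK N c K) (lab := labK N K) (flK N K) ⟨x, hx⟩ hxne hl0)
    rw [re6, Complex.sub_re, re6, Complex.re_sum] at hr
    have hm : ∀ p ∈ peers (colK N c K) (labK N K) ⟨x, hx⟩,
        (gv B (era (colK N c K) ⟨x, hx⟩) (labK N K) (mrg (flK N K) ⟨x, hx⟩ p)).re
        = (gv B (era (colK N c K) ⟨x, hx⟩) (labK N K) (flK N K)).re := by
      intro p hp
      refine congrArg Complex.re (gv_congr hB _ _ _ fun a a' ha ha' haa => ?_)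
      have hpx : colK N c K p = colK N c K ⟨x, hx⟩ := by
        unfold peers at hp
        rw [mem_filter] at hp
        exact hp.2.2.2.2
      have hpne : p ≠ ⟨x, hx⟩ := by
        unfold peers at hp
        rw [mem_filter] at hp
        exact hp.2.1
      have na : ∀ q : Fin N, era (colK N c K) ⟨x, hx⟩ q ≠ none → q ≠ ⟨x, hx⟩ := by
        intro q hq h'
        subst h'
        exact hq (by unfold era; simp)
      have ne : ∀ q : Fin N, q ≠ ⟨x, hx⟩ → era (colK N c K) ⟨x, hx⟩ q = colK N c K q := by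
        intro q hq; unfold era; rw [Function.update_of_ne hq]
      have hn := net_mrg (flK N K) ⟨x, hx⟩ p a a'
      have z1 : (if a = p then net (flK N K) ⟨x, hx⟩ a' else 0) = 0 := by
        split_ifs with h1
        · have h2 : colK N c K a' ≠ colK N c K ⟨x, hx⟩ := by
            rw [← hpx, ← h1]
            rw [ne _ (na _ ha), ne _ (na _ ha')] at haa
            exact fun h' => haa h'.symm
          have h3 := hl0 a' (by rw [← ne _ (na _ ha')]; exact ha') h2
          unfold net; exact h3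
        · rfl
      have z2 : (if a' = p then net (flK N K) a ⟨x, hx⟩ else 0) = 0 := by
        split_ifs with h1
        · have h2 : colK N c K a ≠ colK N c K ⟨x, hx⟩ := by
            rw [← hpx, ← h1]
            rw [ne _ (na _ ha), ne _ (na _ ha')] at haa
            exact haa
          have h3 := hl0 a (by rw [← ne _ (na _ ha)]; exact ha) h2
          unfold net; linarith
        · rfl
      rw [z1, z2, add_zero, add_zero] at hn
      exact hn
    rw [Finset.sum_congr rfl hm, Finset.sum_const, nsmul_eq_mul] at hr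
    have ht := tck_era (B := B) hB hZ ⟨x, hx⟩ (flK N K) k3 (fun p q hpq _ _ => g0_spec K p q hpq)
    have hmc : (mc : ℝ) = 6 - ((peers (colK N c K) (labK N K) ⟨x, hx⟩).card : ℝ) := by
      rw [← hcnt]
      have := Nat.eq_of_beq_eq_true k2
      have h2 : mc + cntP (isPr Z x (wdN Z x)) N = 6 := this
      have h3 : ((mc + cntP (isPr Z x (wdN Z x)) N : ℕ) : ℝ) = 6 := by rw [h2]; norm_num
      push_cast at h3
      linarith
    rw [List.map_nil, List.sum_nil, add_zero, ht, hmc]
    linear_combination (pwp b) * hr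
  rw [h0, cond_false, Bool.and_eq_true] at hk
  obtain ⟨hk, hp⟩ := hk
  rw [pLp_peers (B := B) hB hZ ⟨x, hx⟩ hxne hp]
  rcases h1 : Nat.beq (hf h 0) 1 with _ | _
  swap
  · -- kind 1
    rw [h1, cond_true, Bool.and_eq_true, Bool.and_eq_true, Bool.and_eq_true] at hk
    obtain ⟨k1, k2, k3, k4⟩ := hk
    obtain ⟨hw, hy, hl⟩ := l1C_spec hZ hx hwx k1
    have hc : colK N c K ⟨w, hw⟩ ≠ colK N c K ⟨y, hy⟩ := by
      have k1' := k1
      unfold l1C at k1'
      simp only [Bool.and_eq_true] at k1'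
      rw [cw, cw]
      exact w2c_ne k1'.2.1.1 k1'.2.1.2 (beq_false_ne k2)
    have hr := congrArg Complex.re (rule1 hB (colK N c K) (lab := labK N K) (flK N K) ⟨x, hx⟩
      ⟨w, hw⟩ ⟨y, hy⟩ hxne hl hc)
    rw [re6, Complex.sub_re, r6_re, Complex.re_sum] at hr
    have ht := tck_era (B := B) hB hZ ⟨x, hx⟩ (addE (flK N K) ⟨w, hw⟩ ⟨y, hy⟩) k4
      (fun p q hpq _ _ => gA_spec K ⟨w, hw⟩ ⟨y, hy⟩ p q hpq)
    have hmc : mc = if b = 0 then 1 else 6 := by
      have h3 : mc = cond (Nat.beq b 0) 1 6 := Nat.eq_of_beq_eq_true k3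
      rw [h3]
      rcases hbb : Nat.beq b 0 with _ | _
      · rw [cond_false, if_neg]
        intro h'; rw [h'] at hbb; simp at hbb
      · rw [cond_true, if_pos (Nat.eq_of_beq_eq_true hbb)]
    have hpw := pwp_mul hb2
    have hsub : Nat.sub 1 b = 1 - b := rfl
    rw [ht, hmc, hsub]
    linear_combination (pwp b) * hr + (gv B (era (colK N c K) ⟨x, hx⟩) (labK N K)
      (addE (flK N K) ⟨w, hw⟩ ⟨y, hy⟩)).re * hpw
  rw [h1, cond_false] at hk
  rcases h2 : Nat.beq (hf h 0) 2 with _ | _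
  swap
  · -- kind 2
    rw [h2, cond_true, Bool.and_eq_true, Bool.and_eq_true, Bool.and_eq_true,
      Bool.and_eq_true] at hk
    obtain ⟨k1, k2, k3, k4, k5⟩ := hk
    obtain ⟨hw, hy, hl⟩ := l1C_spec hZ hx hwx k1
    have hc : colK N c K ⟨w, hw⟩ = colK N c K ⟨y, hy⟩ := by
      rw [cw, cw]; exact w2c_congr (Nat.eq_of_beq_eq_true k2)
    have hr := congrArg Complex.re (rule1s hB (colK N c K) (lab := labK N K) (flK N K) ⟨x, hx⟩
      ⟨w, hw⟩ ⟨y, hy⟩ hxne hl hc (by rw [labw, beq_iff_eq]; exact Nat.eq_of_beq_eq_true k4)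
      (by rw [labw, beq_iff_eq]; exact Nat.eq_of_beq_eq_true k5))
    rw [re6, Complex.neg_re, Complex.re_sum] at hr
    have hmc : mc = 0 := Nat.eq_of_beq_eq_true k3
    rw [hmc, Nat.cast_zero, zero_mul]
    linear_combination (pwp b) * hr
  rw [h2, cond_false] at hk
  rcases h3 : Nat.beq (hf h 0) 3 with _ | _
  swap
  · -- kind 3
    rw [h3, cond_true, Bool.and_eq_true, Bool.and_eq_true, Bool.and_eq_true,
      Bool.and_eq_true] at hk
    obtain ⟨k1, k2, k3, k4, k5⟩ := hk
    obtain ⟨hw, hy, hl⟩ := l1C_spec hZ hx hwx k1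
    have hc : colK N c K ⟨w, hw⟩ = colK N c K ⟨y, hy⟩ := by
      rw [cw, cw]; exact w2c_congr (Nat.eq_of_beq_eq_true k2)
    have lw : labK N K ⟨w, hw⟩ = false := by
      rw [labw]
      have h4 : Nat.mod (wdN Z w) 2 = 0 := Nat.eq_of_beq_eq_true k4
      show (Nat.mod (wdN Z w) 2 == 1) = false
      rw [h4]; rfl
    have hr := congrArg Complex.re (rule1w hB (colK N c K) (lab := labK N K) (flK N K) ⟨x, hx⟩
      ⟨w, hw⟩ ⟨y, hy⟩ hxne hl hc lw)
    rw [re6, Complex.sub_re, Complex.re_sum] at hr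
    have hmc : mc = 1 := Nat.eq_of_beq_eq_true k3
    have ht := tck_era2 (B := B) hB hZ ⟨x, hx⟩ ⟨w, hw⟩ (mrg (flK N K) ⟨w, hw⟩ ⟨y, hy⟩) k5
      (fun p q hpq hp hq => gM_spec K ⟨w, hw⟩ ⟨y, hy⟩ p q hpq hp hq)
    rw [ht, hmc]
    push_cast
    linear_combination (pwp b) * hr
  rw [h3, cond_false] at hk
  rcases h4 : Nat.beq (hf h 0) 4 with _ | _
  swap
  · -- kind 4
    rw [h4, cond_true, Bool.and_eq_true, Bool.and_eq_true, Bool.and_eq_true,
      Bool.and_eq_true] at hk
    obtain ⟨k1, k2, k3, k4, k5⟩ := hk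
    obtain ⟨hw, hy, hl⟩ := l1C_spec hZ hx hwx k1
    have hc : colK N c K ⟨w, hw⟩ = colK N c K ⟨y, hy⟩ := by
      rw [cw, cw]; exact w2c_congr (Nat.eq_of_beq_eq_true k2)
    have ly : labK N K ⟨y, hy⟩ = false := by
      rw [labw]
      have h4 : Nat.mod (wdN Z y) 2 = 0 := Nat.eq_of_beq_eq_true k4
      show (Nat.mod (wdN Z y) 2 == 1) = false
      rw [h4]; rfl
    have hr := congrArg Complex.re (rule1y hB (colK N c K) (lab := labK N K) (flK N K) ⟨x, hx⟩
      ⟨w, hw⟩ ⟨y, hy⟩ hxne hl hc ly)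
    rw [re6, Complex.sub_re, Complex.re_sum] at hr
    have hmc : mc = 1 := Nat.eq_of_beq_eq_true k3
    have ht := tck_era2 (B := B) hB hZ ⟨x, hx⟩ ⟨y, hy⟩ (mrg (flK N K) ⟨y, hy⟩ ⟨w, hw⟩) k5
      (fun p q hpq hp hq => gM_spec K ⟨y, hy⟩ ⟨w, hw⟩ p q hpq hp hq)
    rw [ht, hmc]
    push_cast
    linear_combination (pwp b) * hr
  rw [h4, cond_false, Bool.and_eq_true, Bool.and_eq_true] at hk
  · -- kind 5
    obtain ⟨_, k3, k5⟩ := hk
    have hr := congrArg Complex.re (ruleF hB (colK N c K) (lab := labK N K) (flK N K) ⟨x, hx⟩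
      hxne)
    rw [re6, Complex.sub_re, re6, Complex.re_sum] at hr
    have hmc : mc = 6 := Nat.eq_of_beq_eq_true k3
    have hwF : ∀ p : Fin N, wF Z x p / 2 = wdN Z p / 2 := by
      intro p
      unfold wF
      cases Nat.beq (p : ℕ) x
      · rfl
      · rw [cond_true]
        show 2 * (wdN Z p / 2) / 2 = _
        omega
    have ht := tck_spec (B := B) hB (colK N c K)
      (Function.update (labK N K) ⟨x, hx⟩ false) (flK N K) k5
      (fun p => by rw [cw]; exact w2c_congr (hwF p).symm)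
      (fun p _ => by
        unfold wF
        by_cases hpx : p = ⟨x, hx⟩
        · rw [hpx, Function.update_self]
          have : Nat.beq ((⟨x, hx⟩ : Fin N) : ℕ) x = true := Nat.beq_refl x
          rw [this, cond_true]
          have h9 : (Nat.mul 2 (Nat.div (wdN Z ((⟨x, hx⟩ : Fin N) : ℕ)) 2)) % 2 = 0 := by
            show (2 * (wdN Z x / 2)) % 2 = 0
            omega
          rw [h9]; rfl
        · rw [Function.update_of_ne hpx]
          have : Nat.beq (p : ℕ) x = false := by
            have := beq_fin (p := p) (q := ⟨x, hx⟩)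
            rw [decide_eq_false hpx] at this
            exact this
          rw [this, cond_false]
          exact labw p)
      (fun p q hpq _ _ => g0_spec K p q hpq.ne)
    rw [ht, hmc]
    push_cast
    linear_combination (pwp b) * hr

end Vale.Agent.P355.H693
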