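import Vale.Agent.P355.H693.InjTab
import Vale.Agent.P355.H129.Digits

/-! Kernel checker for lists of rows between injective classes. -/

namespace Vale.Agent.P355.H693.Inj

open Finset Vale.Agent.P355 Vale.Agent.P355.H138 Vale.Agent.P355.H129

set_option linter.unusedSectionVars false

variable {x : Fin 7 → Fin 7 → ℂ}

/-! ### Data -/

/-- sparse list with nonnegative entries: `(8 i, 8 j, e)`. -/
abbrev NL : Type := List (ℕ × ℕ × ℕ)

/-- value of a list under placement bytes. -/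
def ev (A B : ℕ) (L : NL) : ℕ :=
  List.rec (motive := fun _ => ℕ) 0 (fun m _ ih => Nat.add ih
    (Nat.shiftLeft m.2.2 (Nat.add (byt A m.1) (byt B m.2.1)))) L

/-- value of unit weights in one column (`d` = shift of the column). -/
def evw (A d : ℕ) (w : List ℕ) : ℕ :=
  List.rec (motive := fun _ => ℕ) 0 (fun i _ ih => Nat.add ih
    (Nat.shiftLeft 1 (Nat.add (byt A i) d))) w

/-- legality of a list. -/
def okN (L : NL) : Bool :=
  List.rec (motive := fun _ => Bool) true (fun m _ ih => and (and (Nat.beq (Nat.land m.1 7) 0)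
    (Nat.ble m.1 48)) (and (and (Nat.beq (Nat.land m.2.1 7) 0) (Nat.ble m.2.1 48)) ih)) L

/-- total weight of a list. -/
def wsum (L : NL) : ℕ :=
  List.rec (motive := fun _ => ℕ) 0 (fun m _ ih => Nat.add m.2.2 ih) L

/-- tables of classes: binary trees; the entry of a class is `2 (code + OFF) + parity`. -/
inductive Tr where
  | leaf : Tr
  | node : ℕ → Tr → Tr → Tr

/-- entry number `n`. -/
noncomputable def Tr.get (t : Tr) : ℕ → ℕ :=
  Tr.rec (motive := fun _ => ℕ → ℕ) (fun _ => 0) (fun v _ _ gl gr n =>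
    cond (Nat.ble n 1) v (cond (Nat.beq (Nat.land n 1) 0) (gl (Nat.shiftRight n 1))
      (gr (Nat.shiftRight n 1)))) t

/-- offset of the codes: `32 * (64 ^ 49 - 1) / 63`. -/
def OFF : ℕ := 0x20820820820820820820820820820820820820820820820820820820820820820820820820

/-- value of class number `n`. -/
noncomputable def val (x : Fin 7 → Fin 7 → ℂ) (T : Tr) (n : ℕ) : ℝ :=
  icv x (Nat.beq (Nat.land (T.get n) 1) 1) ((Nat.shiftRight (T.get n) 1 : ℕ) - (OFF : ℕ) : ℤ)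

/-- positive part of the weights (as `8 i`). -/
def wp (k i _i' : ℕ) : List ℕ :=
  match k with
  | 0 => [Nat.mul 8 i]
  | 1 => []
  | 2 => [Nat.mul 8 i]
  | 3 => [Nat.mul 8 i]
  | 4 => [0]
  | _ => [8, 16, 24]

/-- negative part of the weights. -/
def wn (k i i' : ℕ) : List ℕ :=
  match k with
  | 0 => []
  | 1 => [Nat.mul 8 i]
  | 2 => [Nat.mul 8 i']
  | 3 => [0]
  | 4 => [Nat.mul 8 i]
  | _ => [32, 40, 48]

/-- positive part of the weights on the right. -/
def vp (k i : ℕ) : List ℕ :=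
  match k with
  | 3 => [Nat.mul 8 i]
  | _ => []

/-- negative part of the weights on the right. -/
def vn (k i : ℕ) : List ℕ :=
  match k with
  | 4 => [Nat.mul 8 i]
  | _ => []

/-- a term: ranks of the two permutations, flag (`1`: transposed, `2`: sign), class number. -/
abbrev Tm : Type := ℕ × ℕ × ℕ × ℕ

/-- comparison of the two sides. -/
def cmp (O f E lp ln : ℕ) : Bool :=
  cond (Nat.beq (Nat.land f 2) 0) (Nat.beq (Nat.add lp O) (Nat.add ln (Nat.shiftRight E 1)))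
    (Nat.beq (Nat.add lp (Nat.shiftRight E 1)) (Nat.add ln O))

/-- check of one term: `j8 = 8 *` column of the weights. -/
noncomputable def termOK (T : Tr) (par : ℕ) (Mp Mn : NL) (j8 : ℕ) (p n : List ℕ) (t : Tm) : Bool :=
  and (and (Nat.blt t.1 720) (Nat.blt t.2.1 720))
    (force (cond (Nat.beq (Nat.land t.2.2.1 1) 0) (tab TA t.1) (tab TB t.1)) fun A =>
      force (cond (Nat.beq (Nat.land t.2.2.1 1) 0) (tab TB t.2.1) (tab TA t.2.1)) fun B =>
        force (byt B j8) fun d =>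
          force (T.get t.2.2.2) fun E =>
            and (Nat.beq (Nat.land E 1) par)
              (cmp OFF t.2.2.1 E (Nat.add (ev A B Mp) (evw A d p)) (Nat.add (ev A B Mn) (evw A d n))))

/-- a row: kind and indices, parity of the right-hand side (or of the row), monomial, the six
terms, the right-hand side. -/
structure RowD where
  k : ℕ
  i : ℕ
  i' : ℕ
  b : ℕ
  Mp : NL
  Mn : NL
  t1 : Tm
  t2 : Tm
  t3 : Tm
  t4 : Tm
  t5 : Tm
  t6 : Tm
  rh : Tm

/-- check of a row. -/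
noncomputable def rowOK (T : Tr) (R : RowD) : Bool :=
  and (and (okT R.k R.i R.i') (and (and (okN R.Mp) (okN R.Mn))
      (and (Nat.ble (Nat.add (wsum R.Mp) (wsum R.Mn)) 25) (Nat.ble R.b 1))))
    (force (cond (isz R.k) R.b (Nat.sub 1 R.b)) fun par =>
      (fun (p n : List ℕ) =>
        and (and (and (termOK T par R.Mp R.Mn 8 p n R.t1) (termOK T par R.Mp R.Mn 16 p n R.t2))
          (and (termOK T par R.Mp R.Mn 24 p n R.t3) (termOK T par R.Mp R.Mn 32 p n R.t4)))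
          (and (and (termOK T par R.Mp R.Mn 40 p n R.t5) (termOK T par R.Mp R.Mn 48 p n R.t6))
            (cond (isz R.k) true (termOK T R.b R.Mp R.Mn 0 (vp R.k R.i) (vn R.k R.i) R.rh))))
        (wp R.k R.i R.i') (wn R.k R.i R.i'))

/-- the relation of a row: terms (coefficient, class number). -/
def RowD.rel (R : RowD) : List (ℤ × ℕ) :=
  [(1, R.t1.2.2.2), (1, R.t2.2.2.2), (1, R.t3.2.2.2), (1, R.t4.2.2.2), (1, R.t5.2.2.2),
    (1, R.t6.2.2.2), (cond (isz R.k) 0 (cond (Nat.beq R.b 1) (-1) (-6)), R.rh.2.2.2)]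

/-! ### Soundness -/

/-- semantics of a list. -/
def toS (ε : ℤ) (L : NL) : SL := L.map fun m => (m.1 / 8, m.2.1 / 8, ε * (m.2.2 : ℤ))

theorem okN_cons {m : ℕ × ℕ × ℕ} {L : NL} (h : okN (m :: L) = true) :
    (m.1 % 8 = 0 ∧ m.1 ≤ 48) ∧ (m.2.1 % 8 = 0 ∧ m.2.1 ≤ 48) ∧ okN L = true := by
  have h' : (((Nat.beq (Nat.land m.1 7) 0) && (Nat.ble m.1 48)) &&
    (((Nat.beq (Nat.land m.2.1 7) 0) && (Nat.ble m.2.1 48)) && okN L)) = true := h
  simp only [Bool.and_eq_true, Nat.beq_eq, Nat.ble_eq] at h'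
  obtain ⟨⟨h1, h2⟩, ⟨h3, h4⟩, h5⟩ := h'
  have e : ∀ a : ℕ, Nat.land a 7 = a % 8 := fun a => by
    have := Nat.and_two_pow_sub_one_eq_mod a 3
    simpa using this
  rw [e] at h1 h3
  exact ⟨⟨h1, h2⟩, ⟨h3, h4⟩, h5⟩

theorem okL_toS (ε : ℤ) (L : NL) (h : okN L = true) : okL 6 (toS ε L) := by
  induction L with
  | nil => intro t ht; simp [toS] at ht
  | cons m L ih =>
    obtain ⟨h1, h2, h3⟩ := okN_cons h
    intro t ht
    simp only [toS, List.map_cons, List.mem_cons] at ht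
    rcases ht with rfl | ht
    · exact ⟨show m.1 / 8 ≤ 6 by omega, show m.2.1 / 8 ≤ 6 by omega⟩
    · exact ih h3 t ht

theorem wtot_toS (ε : ℤ) (hε : ε = 1 ∨ ε = -1) (L : NL) : wtot (toS ε L) = wsum L := by
  induction L with
  | nil => rfl
  | cons m L ih =>
    have h1 : wsum (m :: L) = m.2.2 + wsum L := rfl
    have h2 : wtot (toS ε (m :: L)) = |ε * (m.2.2 : ℤ)| + wtot (toS ε L) := by
      simp [toS, wtot]
    rw [h1, h2, ih]
    push_cast
    congr 1
    rcases hε with rfl | rfl <;> simp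

/-- placement functions: shifts of the rows and of the columns. -/
def shl (f g : ℕ → ℕ) (L : SL) : ℤ := (L.map fun t => t.2.2 * 2 ^ (f t.1 + g t.2.1)).sum

theorem shl_append (f g : ℕ → ℕ) (L L' : SL) : shl f g (L ++ L') = shl f g L + shl f g L' := by
  simp [shl]

theorem ev_eq (A B : ℕ) (f g : ℕ → ℕ) (hA : ∀ i ≤ 6, byt A (8 * i) = f i)
    (hB : ∀ i ≤ 6, byt B (8 * i) = g i) (ε : ℤ) (L : NL) (h : okN L = true) :
    shl f g (toS ε L) = ε * ev A B L := by
  induction L with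
  | nil => simp [shl, toS, ev]
  | cons m L ih =>
    obtain ⟨⟨h1, h1'⟩, ⟨h2, h2'⟩, h3⟩ := okN_cons h
    have e1 : ev A B (m :: L) = ev A B L + m.2.2 <<< (byt A m.1 + byt B m.2.1) := rfl
    have e2 : shl f g (toS ε (m :: L)) = ε * (m.2.2 : ℤ) * 2 ^ (f (m.1 / 8) + g (m.2.1 / 8))
        + shl f g (toS ε L) := by simp [shl, toS]
    rw [e1, e2, ih h3, Nat.shiftLeft_eq]
    have a1 : 8 * (m.1 / 8) = m.1 := by omega
    have a2 : 8 * (m.2.1 / 8) = m.2.1 := by omega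
    have b1 := hA (m.1 / 8) (by omega)
    have b2 := hB (m.2.1 / 8) (by omega)
    rw [a1] at b1
    rw [a2] at b2
    rw [← b1, ← b2]
    push_cast
    ring

/-- weights as a list. -/
def wl (ε : ℤ) (w : List ℕ) : List (ℕ × ℤ) := w.map fun i => (i / 8, ε)

theorem evw_eq (A B : ℕ) (f g : ℕ → ℕ) (hA : ∀ i ≤ 6, byt A (8 * i) = f i)
    (hB : ∀ i ≤ 6, byt B (8 * i) = g i) (ε : ℤ) (j : ℕ) (hj : j ≤ 6) (w : List ℕ)
    (hw : ∀ i ∈ w, i % 8 = 0 ∧ i ≤ 48) :
    shl f g (putc j (wl ε w)) = ε * evw A (byt B (8 * j)) w := by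
  induction w with
  | nil => simp [shl, putc, wl, evw]
  | cons i w ih =>
    have e1 : evw A (byt B (8 * j)) (i :: w)
        = evw A (byt B (8 * j)) w + 1 <<< (byt A i + byt B (8 * j)) := rfl
    have e2 : shl f g (putc j (wl ε (i :: w))) = ε * 2 ^ (f (i / 8) + g j)
        + shl f g (putc j (wl ε w)) := by simp [shl, putc, wl]
    rw [e1, e2, ih fun i hi => hw i (List.mem_cons_of_mem _ hi), Nat.shiftLeft_eq]
    obtain ⟨h1, h2⟩ := hw i (by simp)
    have a1 : 8 * (i / 8) = i := by omega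
    have b1 := hA (i / 8) (by omega)
    rw [a1] at b1
    rw [b1, hB j hj]
    push_cast
    ring

theorem shl_P (σ τ : Pm) (L : SL) (hL : okL 6 L) :
    codeP σ τ (ofL L) = shl (fun i => 42 * hat σ i) (fun j => 6 * hat τ j) L := by
  rw [codeP_ofL σ τ L hL]
  unfold shl
  congr 1
  refine List.map_congr_left fun t _ => ?_
  congr 1
  rw [show (64 : ℤ) = 2 ^ 6 by norm_num, ← pow_mul]
  congr 1; ring

theorem shl_Q (σ τ : Pm) (L : SL) (hL : okL 6 L) :
    codeQ σ τ (ofL L) = shl (fun i => 6 * hat σ i) (fun j => 42 * hat τ j) L := by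
  rw [codeQ_ofL σ τ L hL]
  unfold shl
  congr 1
  refine List.map_congr_left fun t _ => ?_
  congr 1
  rw [show (64 : ℤ) = 2 ^ 6 by norm_num, ← pow_mul]
  congr 1; ring

/-- the list of a monomial with weights. -/
def full (Mp Mn : NL) (j : ℕ) (p n : List ℕ) : SL :=
  (toS 1 Mp ++ toS (-1) Mn) ++ putc j (wl 1 p ++ wl (-1) n)

theorem putc_append (j : ℕ) (l l' : List (ℕ × ℤ)) : putc j (l ++ l') = putc j l ++ putc j l' := by
  simp [putc]

theorem wtot_append (L L' : SL) : wtot (L ++ L') = wtot L + wtot L' := by simp [wtot]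

theorem wtot_putc (j : ℕ) (ε : ℤ) (hε : ε = 1 ∨ ε = -1) (w : List ℕ) :
    wtot (putc j (wl ε w)) = w.length := by
  induction w with
  | nil => rfl
  | cons i w ih =>
    have e2 : wtot (putc j (wl ε (i :: w))) = |ε| + wtot (putc j (wl ε w)) := by
      simp [wtot, putc, wl]
    rw [e2, ih, List.length_cons]
    rcases hε with rfl | rfl <;> push_cast <;> simp <;> ring

theorem okL_append {L L' : SL} (h : okL 6 L) (h' : okL 6 L') : okL 6 (L ++ L') := by
  intro t ht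
  rcases List.mem_append.1 ht with ht | ht
  · exact h t ht
  · exact h' t ht

theorem okL_putc (j : ℕ) (hj : j ≤ 6) (ε : ℤ) (w : List ℕ) (hw : ∀ i ∈ w, i % 8 = 0 ∧ i ≤ 48) :
    okL 6 (putc j (wl ε w)) := by
  intro t ht
  simp only [putc, wl, List.map_map, List.mem_map, Function.comp] at ht
  obtain ⟨i, hi, rfl⟩ := ht
  have := hw i hi
  exact ⟨by simp only; omega, hj⟩

theorem cmp_sound {O f E lp ln : ℕ} (h : cmp O f E lp ln = true) :
    (lp : ℤ) - ln = ((E >>> 1 : ℕ) : ℤ) - ((O : ℕ) : ℤ) ∨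
    (lp : ℤ) - ln = -(((E >>> 1 : ℕ) : ℤ) - ((O : ℕ) : ℤ)) := by
  unfold cmp at h
  cases hb : Nat.beq (Nat.land f 2) 0
  · rw [hb] at h
    simp only [cond_false, Nat.beq_eq] at h
    right
    have h3 : lp + (E >>> 1) = ln + O := h
    have h4 : ((lp + (E >>> 1) : ℕ) : ℤ) = ((ln + O : ℕ) : ℤ) := by rw [h3]
    push_cast at h4 ⊢
    linarith
  · rw [hb] at h
    simp only [cond_true, Nat.beq_eq] at h
    left
    have h3 : lp + O = ln + (E >>> 1) := h
    have h4 : ((lp + O : ℕ) : ℤ) = ((ln + (E >>> 1) : ℕ) : ℤ) := by rw [h3]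
    push_cast at h4 ⊢
    linarith

theorem full_ok {Mp Mn : NL} {j : ℕ} {p n : List ℕ} (hj : j ≤ 6) (hMp : okN Mp = true)
    (hMn : okN Mn = true) (hp : ∀ i ∈ p, i % 8 = 0 ∧ i ≤ 48) (hn : ∀ i ∈ n, i % 8 = 0 ∧ i ≤ 48) :
    okL 6 (full Mp Mn j p n) := by
  unfold full
  rw [putc_append]
  exact okL_append (okL_append (okL_toS _ _ hMp) (okL_toS _ _ hMn))
    (okL_append (okL_putc j hj _ _ hp) (okL_putc j hj _ _ hn))

theorem full_wt {Mp Mn : NL} {j : ℕ} {p n : List ℕ} (hM : wsum Mp + wsum Mn ≤ 25)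
    (hpn : p.length + n.length ≤ 6) : wtot (full Mp Mn j p n) ≤ 31 := by
  unfold full
  rw [putc_append, wtot_append, wtot_append, wtot_append, wtot_toS 1 (Or.inl rfl),
    wtot_toS (-1) (Or.inr rfl), wtot_putc j 1 (Or.inl rfl), wtot_putc j (-1) (Or.inr rfl)]
  have h1 : ((wsum Mp + wsum Mn : ℕ) : ℤ) ≤ 25 := by exact_mod_cast hM
  have h2 : ((p.length + n.length : ℕ) : ℤ) ≤ 6 := by exact_mod_cast hpn
  push_cast at h1 h2
  linarith

theorem full_shl {Mp Mn : NL} {j : ℕ} {p n : List ℕ} (hj : j ≤ 6) (hMp : okN Mp = true)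
    (hMn : okN Mn = true) (hp : ∀ i ∈ p, i % 8 = 0 ∧ i ≤ 48) (hn : ∀ i ∈ n, i % 8 = 0 ∧ i ≤ 48)
    (f g : ℕ → ℕ) (A B : ℕ) (hA : ∀ i ≤ 6, byt A (8 * i) = f i)
    (hB : ∀ i ≤ 6, byt B (8 * i) = g i) :
    shl f g (full Mp Mn j p n) = ((Nat.add (ev A B Mp) (evw A (byt B (8 * j)) p) : ℕ) : ℤ)
        - ((Nat.add (ev A B Mn) (evw A (byt B (8 * j)) n) : ℕ) : ℤ) := by
  unfold full
  rw [putc_append, shl_append, shl_append, shl_append, ev_eq A B f g hA hB 1 Mp hMp,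
    ev_eq A B f g hA hB (-1) Mn hMn, evw_eq A B f g hA hB 1 j hj p hp,
    evw_eq A B f g hA hB (-1) j hj n hn, Nat.add_eq, Nat.add_eq]
  push_cast
  ring

theorem term_core (hx : Base x) {O E par : ℕ} {Mp Mn : NL} {j : ℕ} {p n : List ℕ} {r s f : ℕ}
    (hr : r < 720) (hs : s < 720)
    (hj : j ≤ 6) (hMp : okN Mp = true) (hMn : okN Mn = true) (hM : wsum Mp + wsum Mn ≤ 25)
    (hp : ∀ i ∈ p, i % 8 = 0 ∧ i ≤ 48) (hn : ∀ i ∈ n, i % 8 = 0 ∧ i ≤ 48)
    (hpn : p.length + n.length ≤ 6) (A B : ℕ)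
    (hAB : (A = tab TA r ∧ B = tab TB s) ∨ (A = tab TB r ∧ B = tab TA s))
    (h : cmp O f E (Nat.add (ev A B Mp) (evw A (byt B (8 * j)) p))
      (Nat.add (ev A B Mn) (evw A (byt B (8 * j)) n)) = true) :
    riv x (Nat.beq par 1) (ofL (full Mp Mn j p n))
      = icv x (Nat.beq par 1) (((E >>> 1 : ℕ) : ℤ) - ((O : ℕ) : ℤ)) := by
  obtain ⟨σ, hσ⟩ := tab_spec hr
  obtain ⟨τ, hτ⟩ := tab_spec hs
  have hok : okL 6 (full Mp Mn j p n) := full_ok hj hMp hMn hp hn
  refine riv_eq hx _ σ τ _ (sm_ofL _ (full_wt hM hpn)) _ ?_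
  have hc := cmp_sound h
  rcases hAB with ⟨rfl, rfl⟩ | ⟨rfl, rfl⟩
  · have hk := full_shl hj hMp hMn hp hn _ _ _ _ (fun i hi => (hσ i hi).1) (fun i hi => (hτ i hi).2)
    rw [← hk, ← shl_P σ τ _ hok] at hc
    rcases hc with hc | hc
    · exact Or.inl hc
    · exact Or.inr (Or.inl hc)
  · have hk := full_shl hj hMp hMn hp hn _ _ _ _ (fun i hi => (hσ i hi).2) (fun i hi => (hτ i hi).1)
    rw [← hk, ← shl_Q σ τ _ hok] at hc
    rcases hc with hc | hc
    · exact Or.inr (Or.inr (Or.inl hc))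
    · exact Or.inr (Or.inr (Or.inr hc))

theorem termOK_sound (hx : Base x) {T : Tr} {par : ℕ} {Mp Mn : NL} {j : ℕ} {p n : List ℕ} {t : Tm}
    (hj : j ≤ 6) (hMp : okN Mp = true) (hMn : okN Mn = true) (hM : wsum Mp + wsum Mn ≤ 25)
    (hp : ∀ i ∈ p, i % 8 = 0 ∧ i ≤ 48) (hn : ∀ i ∈ n, i % 8 = 0 ∧ i ≤ 48)
    (hpn : p.length + n.length ≤ 6)
    (h : termOK T par Mp Mn (8 * j) p n t = true) :
    riv x (Nat.beq par 1) (ofL (full Mp Mn j p n)) = val x T t.2.2.2 := by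
  unfold termOK at h
  simp only [force_eq, Bool.and_eq_true, Nat.beq_eq] at h
  obtain ⟨⟨hr, hs⟩, hpar, hc⟩ := h
  have hr' : t.1 < 720 := Nat.le_of_ble_eq_true hr
  have hs' : t.2.1 < 720 := Nat.le_of_ble_eq_true hs
  have h2 := term_core hx (par := par) hr' hs' hj hMp hMn hM hp hn hpn _ _ (by
    cases Nat.beq (Nat.land t.2.2.1 1) 0
    · exact Or.inr ⟨rfl, rfl⟩
    · exact Or.inl ⟨rfl, rfl⟩) hc
  rw [h2]
  unfold val
  rw [show Nat.land (T.get t.2.2.2) 1 = par from hpar]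
  rfl

/-! ### Rows -/

theorem wfun_w (k i i' : ℕ) :
    wfun (wl 1 (wp k i i') ++ wl (-1) (wn k i i')) = wfun (wsp k i i') := by
  have h8 : ∀ a : ℕ, Nat.mul 8 a / 8 = a := fun a => Nat.mul_div_cancel_left a (by norm_num)
  funext p
  match k with
  | 0 => simp [wfun, wl, wp, wn, wsp]
  | 1 => simp [wfun, wl, wp, wn, wsp]
  | 2 => simp [wfun, wl, wp, wn, wsp]
  | 3 => simp [wfun, wl, wp, wn, wsp]
  | 4 => simp [wfun, wl, wp, wn, wsp, add_comm]
  | k + 5 => simp [wfun, wl, wp, wn, wsp]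

theorem wfun_v (k i : ℕ) : wfun (wl 1 (vp k i) ++ wl (-1) (vn k i)) = wfun (vsp k i) := by
  have h8 : ∀ a : ℕ, Nat.mul 8 a / 8 = a := fun a => Nat.mul_div_cancel_left a (by norm_num)
  funext p
  match k with
  | 0 => rfl
  | 1 => rfl
  | 2 => rfl
  | 3 => simp [wfun, wl, vp, vn, vsp]
  | 4 => simp [wfun, wl, vp, vn, vsp]
  | k + 5 => rfl

theorem ok_w (k i i' : ℕ) (h : okT k i i' = true) :
    (∀ a ∈ wp k i i', a % 8 = 0 ∧ a ≤ 48) ∧ (∀ a ∈ wn k i i', a % 8 = 0 ∧ a ≤ 48) ∧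
      (wp k i i').length + (wn k i i').length ≤ 6 := by
  have h8 : ∀ a : ℕ, Nat.mul 8 a = 8 * a := fun a => rfl
  match k, h with
  | 0, h => simp [okT] at h; simp [wp, wn]; omega
  | 1, h => simp [okT] at h; simp [wp, wn]; omega
  | 2, h => simp [okT] at h; simp [wp, wn]; omega
  | 3, h => simp [okT] at h; simp [wp, wn]; omega
  | 4, h => simp [okT] at h; simp [wp, wn]; omega
  | k + 5, h => simp [wp, wn]

theorem ok_v (k i i' : ℕ) (h : okT k i i' = true) :
    (∀ a ∈ vp k i, a % 8 = 0 ∧ a ≤ 48) ∧ (∀ a ∈ vn k i, a % 8 = 0 ∧ a ≤ 48) ∧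
      (vp k i).length + (vn k i).length ≤ 6 := by
  have h8 : ∀ a : ℕ, Nat.mul 8 a = 8 * a := fun a => rfl
  match k, h with
  | 0, h => simp [vp, vn]
  | 1, h => simp [vp, vn]
  | 2, h => simp [vp, vn]
  | 3, h => simp [okT] at h; simp [vp, vn]; omega
  | 4, h => simp [okT] at h; simp [vp, vn]; omega
  | k + 5, h => simp [vp, vn]

/-- monomial of a row. -/
def RowD.M (R : RowD) : SL := toS 1 R.Mp ++ toS (-1) R.Mn

theorem full_addc (R : RowD) (j : ℕ) (hj : j ≤ 6) (l : List (ℕ × ℤ)) (p n : List ℕ)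
    (hw : wfun (wl 1 p ++ wl (-1) n) = wfun l) :
    (ofL (full R.Mp R.Mn j p n) : Mt) = ofL (R.M ++ putc j l) := by
  obtain ⟨q, rfl⟩ := idx_surj (K := 6) hj
  unfold full RowD.M
  rw [← addc_ofL, ← addc_ofL, hw]

/-- **Soundness of the row checker.** -/
theorem rowOK_sound (hx : Full x) {T : Tr} {R : RowD} (h : rowOK T R = true) :
    (R.rel.map fun t => (t.1 : ℝ) * val x T t.2).sum = 0 := by
  unfold rowOK at h
  simp only [force_eq, Bool.and_eq_true, Nat.ble_eq] at h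
  obtain ⟨⟨hT, ⟨hMp, hMn⟩, hM, hb⟩, ⟨⟨h1, h2⟩, h3, h4⟩, ⟨h5, h6⟩, h7⟩ := h
  obtain ⟨wa, wb, wc⟩ := ok_w _ _ _ hT
  obtain ⟨va, vb, vc⟩ := ok_v _ _ _ hT
  have hM' : wsum R.Mp + wsum R.Mn ≤ 25 := hM
  have g : ∀ (j : ℕ) (hj : j ≤ 6) (par : ℕ) (t : Tm),
      termOK T par R.Mp R.Mn (8 * j) (wp R.k R.i R.i') (wn R.k R.i R.i') t = true →
      riv x (Nat.beq par 1) (ofL (R.M ++ putc j (wsp R.k R.i R.i'))) = val x T t.2.2.2 := by
    intro j hj par t ht
    rw [← full_addc R j hj _ _ _ (wfun_w _ _ _)]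
    exact termOK_sound hx.toBase hj hMp hMn hM' wa wb wc ht
  have e1 := g 1 (by norm_num) _ _ h1
  have e2 := g 2 (by norm_num) _ _ h2
  have e3 := g 3 (by norm_num) _ _ h3
  have e4 := g 4 (by norm_num) _ _ h4
  have e5 := g 5 (by norm_num) _ _ h5
  have e6 := g 6 (by norm_num) _ _ h6
  have hs : ∀ par : Bool, ∑ j : Fin 6, riv x par (ofL (R.M ++ putc (j + 1) (wsp R.k R.i R.i')))
      = riv x par (ofL (R.M ++ putc 1 (wsp R.k R.i R.i')))
      + riv x par (ofL (R.M ++ putc 2 (wsp R.k R.i R.i')))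
      + riv x par (ofL (R.M ++ putc 3 (wsp R.k R.i R.i')))
      + riv x par (ofL (R.M ++ putc 4 (wsp R.k R.i R.i')))
      + riv x par (ofL (R.M ++ putc 5 (wsp R.k R.i R.i')))
      + riv x par (ofL (R.M ++ putc 6 (wsp R.k R.i R.i'))) := fun par => Fin.sum_univ_six _
  unfold RowD.rel
  simp only [List.map_cons, List.map_nil, List.sum_cons, List.sum_nil, ← e1, ← e2, ← e3, ← e4,
    ← e5, ← e6]
  cases hz : isz R.k
  · have h8 : termOK T R.b R.Mp R.Mn (8 * 0) (vp R.k R.i) (vn R.k R.i) R.rh = true := by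
      rw [hz] at h7; exact h7
    have e7 := termOK_sound hx.toBase (by norm_num) hMp hMn hM' va vb vc h8
    rw [full_addc R 0 (by norm_num) _ _ _ (wfun_v _ _)] at e7
    have hR := row_s6 hx R.k R.i R.i' hT hz (Nat.beq R.b 1) R.M
    rw [hs] at hR
    have hpar : Nat.beq (Nat.sub 1 R.b) 1 = !(Nat.beq R.b 1) := by
      have : R.b = 0 ∨ R.b = 1 := by omega
      rcases this with h | h <;> rw [h] <;> rfl
    simp only [cond_false, hpar, ← e7]
    have hk : ((kap (Nat.beq R.b 1) : ℤ) : ℝ) = -((cond (Nat.beq R.b 1) (-1) (-6) : ℤ) : ℝ) := by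
      cases Nat.beq R.b 1 <;> simp [kap]
    rw [hk] at hR
    push_cast
    linarith
  · have hR := row_zero hx R.k R.i R.i' hT hz (Nat.beq R.b 1) R.M
    rw [hs] at hR
    simp only [cond_true]
    push_cast
    linarith

/-- all rows of a list. -/
noncomputable def rowsOK (T : Tr) (l : List RowD) : Bool :=
  List.rec (motive := fun _ => Bool) true (fun R _ ih => and (rowOK T R) ih) l

theorem rowsOK_sound (hx : Full x) {T : Tr} {l : List RowD} (h : rowsOK T l = true) :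
    ∀ R ∈ l, (R.rel.map fun t => (t.1 : ℝ) * val x T t.2).sum = 0 := by
  induction l with
  | nil => intro R hR; simp at hR
  | cons a l ih =>
    have h' : (rowOK T a && rowsOK T l) = true := h
    rw [Bool.and_eq_true] at h'
    intro R hR
    rcases List.mem_cons.1 hR with rfl | hR
    · exact rowOK_sound hx h'.1
    · exact ih h'.2 R hR

theorem abs_val_le (hx : Base x) (T : Tr) (n : ℕ) : |val x T n| ≤ 5 / 2 := abs_icv_le hx _ _

end Vale.Agent.P355.H693.Inj
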