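import Vale.Agent.P355.H693.InjCheck
import Vale.Agent.P355.H349.Expect

/-! Configurations of a quadruple satisfy all rows. -/

namespace Vale.Agent.P355.H693.Inj

open Finset Vale.Agent.P355 Vale.Agent.P355.H138

variable {x : Fin 7 → Fin 7 → ℂ}

theorem colw_w7 (h : Base x) (σ : Pm) : colw x σ w7 = ∑ c : Fin 6,
    x (σ 0).castSucc c.castSucc * x (σ 1).castSucc c.castSucc * x (σ 2).castSucc c.castSucc *
    (star (x (σ 3).castSucc c.castSucc) * star (x (σ 4).castSucc c.castSucc) *
      star (x (σ 5).castSucc c.castSucc)) := by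
  unfold colw
  refine Finset.sum_congr rfl fun c _ => ?_
  rw [Fintype.prod_option, Fin.prod_univ_six]
  have e : ∀ i : Fin 6, w7 (some i) = if i.val < 3 then 1 else -1 := fun i => rfl
  have e0 : w7 none = 0 := rfl
  simp only [e, e0, ex_some, ex_none]
  norm_num
  simp only [h.inv]
  simp only [Complex.star_def]
  ring

/-- a configuration of type `{6,6,1,1}` satisfies all rows. -/
theorem Full.of_conf (h : H349.Conf x) : Full x where
  toExt := h.toExt
  n7 := fun σ => by rw [colw_w7 h.toBase]; exact h.n7r σ
  n7t := fun σ => by rw [colw_w7 h.toBase.transpose]; exact h.n7c σ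

end Vale.Agent.P355.H693.Inj
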