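import Vale.Agent.P355.H693.FinM
import Vale.Agent.P355.H349.KGv

/-! The trivial square `kap + (m-2) k3 ≥ (m-1)/6` as an inequality between keys. -/

namespace Vale.Agent.P355.H693

open Finset Matrix Vale.Agent.P355 Vale.Agent.P355.H129
open Vale.Agent.P355.H349.K (iK fK iK_inj K_gv)

set_option linter.unusedSectionVars false
set_option linter.unusedSimpArgs false

variable {m N c : ℕ}

/-- words: colours `0, 0, 1, 1`. -/
def wK2 (s : ℕ) : ℕ :=
  cond (Nat.ble s 1) 2 (cond (Nat.ble s 3) 4 0)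

/-- words: colours `0, 0, 1, 2`. -/
def wK3 (s : ℕ) : ℕ :=
  cond (Nat.ble s 1) 2 (cond (Nat.beq s 2) 4 (cond (Nat.beq s 3) 6 0))

/-- shifted net flows, `p < q`. -/
def gK (p q : ℕ) : ℕ :=
  cond (Nat.beq q 2) (cond (Nat.beq p 0) 94 98)
    (cond (Nat.beq q 3) (cond (Nat.beq p 0) 98 (cond (Nat.beq p 1) 94 96)) 96)

theorem wK2_ge {s : ℕ} (h : 4 ≤ s) : wK2 s = 0 := by
  unfold wK2
  have h0 : Nat.ble s 1 = false := Bool.eq_false_iff.2 fun h1 => by
    have := Nat.le_of_ble_eq_true h1; omega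
  have h1 : Nat.ble s 3 = false := Bool.eq_false_iff.2 fun h1 => by
    have := Nat.le_of_ble_eq_true h1; omega
  rw [h0, h1]
  rfl

theorem wK3_ge {s : ℕ} (h : 4 ≤ s) : wK3 s = 0 := by
  unfold wK3
  have h0 : Nat.ble s 1 = false := Bool.eq_false_iff.2 fun h1 => by
    have := Nat.le_of_ble_eq_true h1; omega
  have h1 : Nat.beq s 2 = false := Bool.eq_false_iff.2 fun h1 => by
    have := Nat.eq_of_beq_eq_true h1; omega
  have h2 : Nat.beq s 3 = false := Bool.eq_false_iff.2 fun h1 => by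
    have := Nat.eq_of_beq_eq_true h1; omega
  rw [h0, h1, h2]
  rfl

theorem wK2_lab : ∀ i : Fin 4, (wK2 (i : ℕ) % 2 == 1) = false := by decide
theorem wK3_lab : ∀ i : Fin 4, (wK3 (i : ℕ) % 2 == 1) = false := by decide

theorem not_range_iK (hN : 4 ≤ N) {p : Fin N} (hp : p ∉ Set.range (iK hN)) : 4 ≤ (p : ℕ) := by
  by_contra h
  exact hp ⟨⟨p, by omega⟩, rfl⟩

theorem net_fK (hN : 4 ≤ N) {p q : Fin N} (hpq : p < q) (hq : (q : ℕ) < 4) :
    net (fK hN) p q = (gK p q : ℤ) - 96 := by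
  obtain ⟨p, hp⟩ := p
  obtain ⟨q, hq'⟩ := q
  have h1 : p < q := hpq
  simp only at hq
  unfold net fK edF
  simp only [Fin.sum_univ_four, E1_val, iK]
  interval_cases q
  · omega
  · interval_cases p
    simp [gK]
    try rfl
  · interval_cases p <;> simp [gK] <;> rfl
  · interval_cases p <;> simp [gK] <;> rfl

/-- the terms of (K): `6 kap + 6 (m-2) k3 - (m-1)`. -/
def listK (m T2 T3 T0 : ℕ) : List (ℕ × ℤ) :=
  [(tId T2, 6), (tId T3, 6 * ((m : ℤ) - 2)), (tId T0, -((m : ℤ) - 1))]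

/-- **(K) in keys.** -/
theorem K_key {B : Fin m → M6} (hB : IsMUBs B) (hm : 3 ≤ m) (hc : 3 ≤ c) (hcm : c ≤ m)
    (hN : 4 ≤ N) {tab : ℕ → ℕ} {T2 T3 T0 : ℕ} (h2 : tck N c tab 0 wK2 gK T2 = true)
    (h3 : tck N c tab 0 wK3 gK T3 = true)
    (h0 : tck N c tab 0 (fun _ => 0) (fun _ _ => 96) T0 = true) :
    0 ≤ valA (fun i => H147.cv B N c (tab i)) (listK m T2 T3 T0) := by
  have hcol : ∀ i : Fin 4, w2c c (wK2 (iK hN i : Fin N))
      = some (Fin.castLE hc ((![0, 0, 1, 1] : Fin 4 → Fin 3) i)) := by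
    intro i
    fin_cases i
    · exact w2c_word hc 0 (by norm_num) 2 (by norm_num)
    · exact w2c_word hc 0 (by norm_num) 2 (by norm_num)
    · exact w2c_word hc 1 (by norm_num) 4 (by norm_num)
    · exact w2c_word hc 1 (by norm_num) 4 (by norm_num)
  have hcol3 : ∀ i : Fin 4, w2c c (wK3 (iK hN i : Fin N))
      = some (Fin.castLE hc ((![0, 0, 1, 2] : Fin 4 → Fin 3) i)) := by
    intro i
    fin_cases i
    · exact w2c_word hc 0 (by norm_num) 2 (by norm_num)
    · exact w2c_word hc 0 (by norm_num) 2 (by norm_num)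
    · exact w2c_word hc 1 (by norm_num) 4 (by norm_num)
    · exact w2c_word hc 2 (by norm_num) 6 (by norm_num)
  have hoth : ∀ p : Fin N, p ∉ Set.range (iK hN) → w2c c (wK2 p) = none := by
    intro p hp
    rw [wK2_ge (not_range_iK hN hp)]
    exact w2c_none (by norm_num)
  have hoth3 : ∀ p : Fin N, p ∉ Set.range (iK hN) → w2c c (wK3 p) = none := by
    intro p hp
    rw [wK3_ge (not_range_iK hN hp)]
    exact w2c_none (by norm_num)
  have hmain := K_gv hB hm hc hcm hN (fun p : Fin N => w2c c (wK2 p))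
    (fun p : Fin N => w2c c (wK3 p)) (fun p : Fin N => wK2 p % 2 == 1)
    (fun p : Fin N => wK3 p % 2 == 1) hcol hcol3 hoth hoth3 (fun a => wK2_lab a)
    (fun a => wK3_lab a)
  have hp0 : pwp 0 = 1 := by unfold pwp; simp
  have e2 : H147.cv B N c (tab (tId T2)) = (H147.gv B (fun p : Fin N => w2c c (wK2 p))
      (fun p : Fin N => wK2 p % 2 == 1) (fK hN)).re := by
    rw [tck_spec hB (fun p : Fin N => w2c c (wK2 p)) (fun p : Fin N => wK2 p % 2 == 1) (fK hN) h2
      (fun p => rfl) (fun p _ => rfl) (fun p q hpq _ hq => ?_), hp0, one_mul]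
    refine net_fK hN hpq ?_
    by_contra h4
    apply hq
    show w2c c (wK2 q) = none
    rw [wK2_ge (by omega)]
    exact w2c_none (by norm_num)
  have e3 : H147.cv B N c (tab (tId T3)) = (H147.gv B (fun p : Fin N => w2c c (wK3 p))
      (fun p : Fin N => wK3 p % 2 == 1) (fK hN)).re := by
    rw [tck_spec hB (fun p : Fin N => w2c c (wK3 p)) (fun p : Fin N => wK3 p % 2 == 1) (fK hN) h3
      (fun p => rfl) (fun p _ => rfl) (fun p q hpq _ hq => ?_), hp0, one_mul]
    refine net_fK hN hpq ?_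
    by_contra h4
    apply hq
    show w2c c (wK3 q) = none
    rw [wK3_ge (by omega)]
    exact w2c_none (by norm_num)
  have e0 := empty_key (N := N) hB hcm h0
  rw [← e2, ← e3] at hmain
  simp only [valA, listK, List.map_cons, List.map_nil, List.sum_cons, List.sum_nil]
  rw [e0]
  push_cast
  linarith

/-- **No five bases**: V-level inequality, packing block, (K) and `t2 ≥ 0`. -/
theorem no_five' {K : ℕ} {tab : ℕ → ℕ} {L : List VR} {P : List (ℕ × ℤ)} {T0 TT T2 T3 : ℕ}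
    (al be : ℕ) (hc : 3 ≤ c) (hcm : c ≤ 5) (hN : 4 ≤ N)
    (hL : (L.all fun r => r.ok N c K tab 6 0) = true)
    (hQ : ∀ x, H138.Good false x → H182.N7x x → 0 ≤ H129.lval K x (L.map VR.term))
    (hP : ∀ B : Fin 5 → M6, IsMUBs B → 0 ≤ valA (fun i => H147.cv B N c (tab i)) P)
    (h2 : tck N c tab 0 wK2 gK T2 = true) (h3 : tck N c tab 0 wK3 gK T3 = true)
    (hT : tck N c tab 0 wTri gTri TT = true)
    (h0 : tck N c tab 0 (fun _ => 0) (fun _ _ => 96) T0 = true)
    (hn : negA (tId T0) (addL (addL (addL (collA L) P) (sclA be (listK 5 T2 T3 T0)))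
      [(tId TT, (al : ℤ))]) = true)
    (B : Fin 5 → M6) : ¬ IsMUBs B :=
  no_five al hc hcm (by omega) hL hQ hP
    (fun B hB => valA_sclA_nonneg (K_key hB (by norm_num) hc hcm hN h2 h3 h0) be) hT h0 hn B

end Vale.Agent.P355.H693
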