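import Vale.Agent.P355.H693.Fin0P

/-! Lists of class numbers as lists of terms (packing block of H790). -/

namespace Vale.Agent.P355.H693

open Finset Matrix Vale.Agent.P355 H147

variable {g : ℕ → ℝ}

theorem tabG_tId_self (ct : GT) (t : ℕ) : tabG ct (tId t) = tabG ct t := by
  rw [tabG_tId]; rfl

/-- a list of class numbers as a list of terms. -/
def swpT (l : List (ℕ × ℤ)) : List (ℤ × ℕ) := l.map fun p => (p.2, p.1)

theorem valT_swp (ct : GT) (l : List (ℕ × ℤ)) :
    valT g ct (swpT l) = valA (fun i => g (tabG ct i)) l := by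
  unfold valT valA swpT
  rw [List.map_map]
  refine congrArg List.sum (List.map_congr_left fun p _ => ?_)
  show (p.2 : ℝ) * g (tabG ct (tId p.1)) = _
  rw [tabG_tId_self]

/-- a sum of lists of class numbers. -/
theorem valT_flat (ct : GT) (L : List (ℕ × List (ℕ × ℤ))) :
    valT g ct (L.flatMap fun e => swpT e.2)
      = (L.map fun e => valA (fun i => g (tabG ct i)) e.2).sum := by
  induction L with
  | nil => simp [valT]
  | cons e L ih =>
    rw [List.flatMap_cons, valT_append, ih, valT_swp, List.map_cons, List.sum_cons]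

/-- **No five bases**: inequality `lV` on frames, packing block `P`, square (K), `t2 ≥ 0`,
rows `out`. -/
theorem no_five_VK {N c : ℕ} {ct : GT} {lV : List (ℤ × ℕ)} {P : List (ℕ × ℤ)}
    {out : List (ℕ × ℕ)} {T0 TT T2 T3 de al be : ℕ} (hc : 3 ≤ c) (hcm : c ≤ 5) (hN : 4 ≤ N)
    (hde : 0 < de)
    (hV : ∀ B : Fin 5 → M6, IsMUBs B → 0 ≤ valT (cv B N c) ct lV)
    (hP : ∀ B : Fin 5 → M6, IsMUBs B → 0 ≤ valA (fun i => cv B N c (tabG ct i)) P)
    (h2 : tck N c (tabG ct) 0 wK2 gK T2 = true) (h3 : tck N c (tabG ct) 0 wK3 gK T3 = true)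
    (hT : tck N c (tabG ct) 0 wTri gTri TT = true)
    (h0 : tck N c (tabG ct) 0 (fun _ => 0) (fun _ _ => 96) T0 = true)
    (ho : ∀ B : Fin 5 → M6, IsMUBs B → evL (cv B N c) ct out = 0)
    (hck : ckFinG ct ((lV ++ (swpT P ++ (listKT 5 be T2 T3 T0 ++ [((al : ℤ), TT)])))
      ++ [((de : ℤ), T0)]) out = true)
    (B : Fin 5 → M6) : ¬ IsMUBs B := by
  intro hB
  refine no_mubs_sum hB hcm hde h0 ?_ (ho B hB) hck
  rw [valT_append, valT_append, valT_append, valT_swp]
  have h1 := hV B hB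
  have h2' := hP B hB
  have h3' := tri_T hB hc hcm (by omega) hT (al := al)
  have h4' := K_T (be := be) hB (by norm_num) hc hcm hN h2 h3 h0
  have h5' : (0 : ℝ) ≤ valT (cv B N c) ct (listKT 5 be T2 T3 T0) := by exact_mod_cast h4'
  linarith

end Vale.Agent.P355.H693
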