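import Vale.Agent.P355.H693.Fin0P

/-! A linear inequality for `t2` as a list; end theorem for four bases with a lower bound for `t2`. -/

namespace Vale.Agent.P355.H693

open Finset Matrix Vale.Agent.P355 H147

set_option linter.unusedSectionVars false
set_option linter.unusedSimpArgs false

variable {m N c : ℕ}

/-- `0 ≤ c0 + c1 t2 + (5/2) E` as a list with multiplier `2 al`. -/
theorem tri_lin {B : Fin m → M6} (hB : IsMUBs B) (hc : 3 ≤ c) (hcm : c ≤ m) (hN : 3 ≤ N)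
    {ct : GT} {TT T0 al E : ℕ} {c0 c1 : ℤ}
    (hT : tck N c (tabG ct) 0 wTri gTri TT = true)
    (h0 : tck N c (tabG ct) 0 (fun _ => 0) (fun _ _ => 96) T0 = true)
    (h : 0 ≤ (c0 : ℝ) + c1 * ((Fintype.card (Fin 3 ↪ Fin m) : ℝ)⁻¹ * (T2 B).re) + E * (5 / 2)) :
    0 ≤ valT (cv B N c) ct [((al : ℤ) * (2 * c1), TT), ((al : ℤ) * (2 * c0 + 5 * E), T0)] := by
  rw [valT_cons, valT_cons]
  have h2 : valT (cv B N c) ct [] = 0 := rfl
  have h3 : cv B N c (tabG ct (tId T0)) = 1 := empty_key hB hcm h0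
  rw [h2, h3, tri_key hB hc hcm hN hT]
  push_cast
  have h4 : (0 : ℝ) ≤ al := by positivity
  nlinarith [mul_nonneg h4 h]

/-- **No four bases**: inequality `lV` on frames, packing block `lP`, lower bound for `t2`,
rows `out`. -/
theorem no_four_V {ct : GT} {lV lP : List (ℤ × ℕ)} {out : List (ℕ × ℕ)} {T0 TT de al E : ℕ}
    {c0 c1 : ℤ} (hc : 3 ≤ c) (hcm : c ≤ m) (hN : 3 ≤ N) (hde : 0 < de)
    (hV : ∀ B : Fin m → M6, IsMUBs B → 0 ≤ valT (cv B N c) ct lV)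
    (hP : ∀ B : Fin m → M6, IsMUBs B → 0 ≤ valT (cv B N c) ct lP)
    (ht : ∀ B : Fin m → M6, IsMUBs B →
      0 ≤ (c0 : ℝ) + c1 * ((Fintype.card (Fin 3 ↪ Fin m) : ℝ)⁻¹ * (T2 B).re) + E * (5 / 2))
    (hT : tck N c (tabG ct) 0 wTri gTri TT = true)
    (h0 : tck N c (tabG ct) 0 (fun _ => 0) (fun _ _ => 96) T0 = true)
    (ho : ∀ B : Fin m → M6, IsMUBs B → evL (cv B N c) ct out = 0)
    (hck : ckFinG ct ((lV ++ (lP ++ [((al : ℤ) * (2 * c1), TT), ((al : ℤ) * (2 * c0 + 5 * E), T0)]))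
      ++ [((de : ℤ), T0)]) out = true)
    (B : Fin m → M6) : ¬ IsMUBs B := by
  intro hB
  refine no_mubs_sum hB hcm hde h0 ?_ (ho B hB) hck
  rw [valT_append, valT_append]
  have h1 := hV B hB
  have h2 := hP B hB
  have h3 := tri_lin hB hc hcm hN (al := al) hT h0 (ht B hB)
  linarith

end Vale.Agent.P355.H693
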